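import Crest.Agent.N49.La.Mv

/-!
# Row 49, lattice layer (helper67): determinant, index and cofactor tools for the lemma GN
-/

set_option autoImplicit false

open Finset Module Matrix

noncomputable section

namespace Crest.Agent.N49.La

/-- crude determinant bound with column widths -/
theorem det_bd {m : ℕ} (A : Matrix (Fin m) (Fin m) ℝ) (b : Fin m → ℝ)
    (h : ∀ i j, |A i j| ≤ b j) : |A.det| ≤ m.factorial * ∏ j, b j := by
  rw [det_apply']
  refine (abs_sum_le_sum_abs _ _).trans ((sum_le_card_nsmul _ _ (∏ j, b j) fun s _ => ?_).trans ?_)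
  · rw [abs_mul, abs_prod, show |((Equiv.Perm.sign s : ℤ) : ℝ)| = 1 by
      rcases Int.units_eq_one_or (Equiv.Perm.sign s) with e | e <;> simp [e], one_mul]
    exact prod_le_prod (fun _ _ => abs_nonneg _) fun j _ => h _ j
  · simp [Fintype.card_perm]

/-- lattice points in the symmetric parallelepiped of an integer matrix -/
theorem cnt {r : ℕ} (M : Matrix (Fin r) (Fin r) ℤ) (hM : M.det ≠ 0) (T : Finset (Fin r → ℤ))
    (h : ∀ m ∈ T, ∃ c : Fin r → ℝ, (∀ i, |c i| ≤ 1) ∧ ci m = c ᵥ* M.map (↑)) :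
    #T ≤ 3 ^ r * M.det.natAbs := by
  classical
  have hi : Function.Injective M.vecMulLinear := fun a b e =>
    sub_eq_zero.1 (eq_zero_of_vecMul_eq_zero hM (by rw [sub_vecMul]; exact sub_eq_zero.2 e))
  set N := LinearMap.range M.vecMulLinear
  have h1 := N.natAbs_det_equiv (LinearEquiv.ofInjective _ hi)
  have h2 : N.subtype ∘ₗ AddMonoidHom.toIntLinearMap
      (LinearEquiv.ofInjective _ hi : (Fin r → ℤ) →+ N) = toLin' Mᵀ := by
    refine LinearMap.ext fun x => ?_
    rw [toLin'_apply, mulVec_transpose]; rfl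
  rw [h2, LinearMap.det_toLin', det_transpose] at h1
  have : Finite ((Fin r → ℤ) ⧸ N) :=
    Nat.finite_of_card_ne_zero (h1 ▸ Int.natAbs_ne_zero.2 hM)
  have := Fintype.ofFinite ((Fin r → ℤ) ⧸ N)
  choose! c hc e using h
  have hM' : (M.map (↑) : Matrix _ _ ℝ).det ≠ 0 := by
    rw [← Int.cast_det]; exact_mod_cast hM
  refine (card_le_card_of_injOn (t := Fintype.piFinset (fun _ : Fin r => Icc (-1 : ℤ) 1) ×ˢ univ)
    (fun m => ((fun i => ⌊c m i⌋), N.mkQ m)) (fun m hm => ?_) fun m hm m' hm' e' => ?_).trans ?_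
  · simp only [coe_product, Set.mem_prod, mem_coe, Fintype.mem_piFinset, mem_Icc, mem_univ,
      and_true]
    intro i
    have := abs_le.1 (hc m hm i)
    exact ⟨Int.le_floor.2 (by simpa using this.1), Int.floor_le_iff.2 (by push_cast; linarith)⟩
  · obtain ⟨e1, e2⟩ := Prod.ext_iff.1 e'
    obtain ⟨z, hz⟩ := (Submodule.Quotient.eq N).1 e2
    have e3 : c m - c m' - ci z = 0 := eq_zero_of_vecMul_eq_zero hM' (by
      rw [sub_vecMul, sub_vecMul, ← e m hm, ← e m' hm', ← map_sub, ← hz, sub_eq_zero]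
      funext j
      simp [vecMul, dotProduct])
    have e4 : z = 0 := funext fun i => by
      have a1 := congrFun e3 i
      have a2 := Int.abs_sub_lt_one_of_floor_eq_floor (congrFun e1 i)
      simp only [Pi.sub_apply, ci_apply, Pi.zero_apply, sub_eq_zero] at a1
      rw [a1] at a2
      exact Int.abs_lt_one_iff.1 (by exact_mod_cast a2)
    rw [e4, map_zero] at hz
    exact sub_eq_zero.1 hz.symm
  · rw [card_product, Fintype.card_piFinset, h1, card_univ, Nat.card_eq_fintype_card]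
    simp

/-- an integral basis of the lattice points of a rational subspace -/
theorem exb {ι : Type*} [Finite ι] {r : ℕ} (v : Fin r → ι → ℤ)
    (hv : LinearIndependent ℝ fun i => ci (v i)) :
    ∃ β : Fin r → ι → ℤ, LinearIndependent ℝ (fun i => ci (β i)) ∧
      (∀ i, ci (β i) ∈ Submodule.span ℝ (Set.range fun i => ci (v i))) ∧
      ∀ u, ci u ∈ Submodule.span ℝ (Set.range fun i => ci (v i)) →
        ∃ m : Fin r → ℤ, u = ∑ i, m i • β i := by
  set W := Submodule.span ℝ (Set.range fun i => ci (v i))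
  obtain ⟨n, b⟩ := (sat W).basisOfPid (Pi.basisFun ℤ ι)
  have h1 : LinearIndependent ℝ fun i => ci (b i).1 :=
    linearIndependent_algebraMap_comp_iff.2
      (b.linearIndependent.map' (sat W).subtype (sat W).ker_subtype)
  have h2 : ∀ u, ci u ∈ W → ∃ m : Fin n → ℤ, u = ∑ i, m i • (b i).1 := fun u hu =>
    ⟨b.repr ⟨u, hu⟩, (congrArg (sat W).subtype (b.sum_repr ⟨u, hu⟩).symm).trans
      (by simp only [map_sum, map_smul]; rfl)⟩
  have h3 : W = Submodule.span ℝ (Set.range fun i => ci (b i).1) := by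
    refine le_antisymm (Submodule.span_le.2 ?_) (Submodule.span_le.2 ?_)
    · rintro _ ⟨i, rfl⟩
      obtain ⟨m, hm⟩ := h2 (v i) (Submodule.subset_span ⟨i, rfl⟩)
      simp only [hm, ci_sum, SetLike.mem_coe]
      exact Submodule.sum_mem _ fun j _ => Submodule.smul_mem _ _ (Submodule.subset_span ⟨j, rfl⟩)
    · rintro _ ⟨i, rfl⟩
      exact (b i).2
  obtain rfl : n = r := by
    have a1 := finrank_span_eq_card h1
    have a2 := finrank_span_eq_card hv
    rw [← h3] at a1
    simpa using a1.symm.trans a2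
  exact ⟨_, h1, fun i => (b i).2, h2⟩

/-- an invertible minor through prescribed independent columns -/
theorem exs {J κ : Type*} [Finite J] {r : ℕ} (B : Matrix (Fin r) J ℝ)
    (hB : LinearIndependent ℝ B.row) (t : κ → J) (ht : LinearIndependent ℝ (B.col ∘ t)) :
    ∃ σ : Fin r → J, (B.submatrix id σ).det ≠ 0 ∧ ∀ l, ∃ j, σ j = t l := by
  classical
  have := Fintype.ofFinite J
  obtain ⟨s, -, h1, h2, h3⟩ := exists_linearIndepOn_extension
    (LinearIndepOn.image_of_comp t B.col (ht.linearIndepOn Set.univ)) (Set.subset_univ _)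
  have h4 : Submodule.span ℝ (Set.range B.col) = ⊤ := Submodule.eq_top_of_finrank_eq (by
    rw [← rank_eq_finrank_span_cols, hB.rank_matrix, finrank_fintype_fun_eq_card])
  have h5 : ⊤ ≤ Submodule.span ℝ (Set.range fun j : s => B.col j) := by
    rw [← h4, Submodule.span_le, ← Set.image_univ, ← Set.image_eq_range]; exact h2
  have h6 := finrank_eq_card_basis (Basis.mk h3 h5)
  rw [finrank_fintype_fun_eq_card, Fintype.card_fin] at h6
  let e := (Fintype.equivFinOfCardEq h6.symm).symm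
  refine ⟨fun j => e j, ?_, fun l => ⟨e.symm ⟨t l, h1 ⟨l, trivial, rfl⟩⟩, by simp⟩⟩
  exact ((isUnit_iff_isUnit_det _).1
    (linearIndependent_cols_iff_isUnit.1 (h3.comp e e.injective))).ne_zero

section cf

variable {R J : Type*} [CommRing R] [DecidableEq J] {r : ℕ}

/-- the cofactor vector of `r` rows on `r+1` columns -/
def cf (B : Matrix (Fin r) J R) (σ : Fin (r + 1) → J) (j : J) : R :=
  ∑ j', if σ j' = j then (-1) ^ (j' : ℕ) * (B.submatrix id (σ ∘ j'.succAbove)).det else 0

theorem cf_dot [Fintype J] (B : Matrix (Fin r) J R) (σ : Fin (r + 1) → J) (y : J → R) :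
    ∑ j, cf B σ j * y j =
      (of fun i j => (Fin.cons y B : Fin (r + 1) → J → R) i (σ j)).det := by
  simp only [cf, sum_mul, ite_mul, zero_mul]
  rw [sum_comm, det_succ_row_zero]
  refine sum_congr rfl fun j _ => ?_
  rw [sum_ite_eq, if_pos (mem_univ _), mul_right_comm]
  rfl

theorem cf_cast (B : Matrix (Fin r) J ℤ) (σ : Fin (r + 1) → J) (j : J) :
    ((cf B σ j : ℤ) : ℝ) = cf (B.map (↑)) σ j := by
  simp only [cf, Int.cast_sum, Int.cast_ite, Int.cast_mul, Int.cast_pow, Int.cast_neg,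
    Int.cast_one, Int.cast_zero, Int.cast_det]
  rfl

theorem cf_mul (M : Matrix (Fin r) (Fin r) R) (B : Matrix (Fin r) J R) (σ : Fin (r + 1) → J)
    (j : J) : cf (M * B) σ j = M.det * cf B σ j := by
  simp only [cf, mul_sum, mul_ite, mul_zero]
  refine sum_congr rfl fun j' _ => ?_
  rw [mul_left_comm, ← det_mul]
  rfl

theorem cf_row [Fintype J] (B : Matrix (Fin r) J R) (σ : Fin (r + 1) → J) (c : Fin r → R) :
    ∑ j, cf B σ j * (c ᵥ* B) j = 0 := by
  have h : ∀ i, ∑ j, cf B σ j * B i j = 0 := fun i => by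
    rw [cf_dot]
    exact det_zero_of_row_eq (Fin.succ_ne_zero i).symm rfl
  simp only [vecMul, dotProduct, mul_sum]
  rw [sum_comm]
  refine sum_eq_zero fun i _ => ?_
  simp only [mul_left_comm _ (c i), ← mul_sum, h, mul_zero]

/-- a vector orthogonal to all cofactor vectors through an invertible minor is in the row span -/
theorem cf_span [Fintype J] (B : Matrix (Fin r) J ℝ) (σ : Fin r → J)
    (hσ : (B.submatrix id σ).det ≠ 0) (y : J → ℝ)
    (h : ∀ a, (∀ j, σ j ≠ a) → ∑ j, cf B (Fin.cons a σ) j * y j = 0) : ∃ c, y = c ᵥ* B := by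
  obtain ⟨c, hc⟩ := vecMul_surjective_iff_isUnit.2 ((isUnit_iff_isUnit_det _).2 hσ.isUnit) (y ∘ σ)
  have h1 : ∀ j, (y - c ᵥ* B) (σ j) = 0 := fun j => sub_eq_zero.2 (congrFun hc j).symm
  refine ⟨c, funext fun a => sub_eq_zero.1 ?_⟩
  by_cases ha : ∀ j, σ j ≠ a
  · have h2 : ∑ j, cf B (Fin.cons a σ) j * (y - c ᵥ* B) j = 0 := by
      simp only [Pi.sub_apply, mul_sub, sum_sub_distrib, h a ha, cf_row, sub_zero]
    rw [cf_dot, det_succ_row_zero, Fin.sum_univ_succ] at h2
    simp only [of_apply, Fin.cons_zero, Fin.cons_succ, h1, mul_zero, zero_mul, sum_const_zero,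
      add_zero, Fin.val_zero, pow_zero, one_mul] at h2
    exact (mul_eq_zero.1 h2).resolve_right hσ
  · push Not at ha
    obtain ⟨j, rfl⟩ := ha
    exact h1 j

end cf

section bx

variable {κ ι : Type*} [Fintype κ]

/-- box coordinates `(w, u - g w)` -/
def bx (g : ι → κ → ℝ) (y : κ ⊕ ι → ℝ) (j : κ ⊕ ι) : ℝ :=
  y j - ∑ l, Sum.elim (fun _ => 0) (fun i => g i l) j * y (.inl l)

@[simp] theorem bx_inl (g : ι → κ → ℝ) (y : κ ⊕ ι → ℝ) (l : κ) : bx g y (.inl l) = y (.inl l) := by
  simp [bx]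

@[simp] theorem bx_inr (g : ι → κ → ℝ) (y : κ ⊕ ι → ℝ) (i : ι) :
    bx g y (.inr i) = y (.inr i) - ∑ l, g i l * y (.inl l) := rfl

theorem det_bx (g : ι → κ → ℝ) {m : ℕ} (A : Fin m → κ ⊕ ι → ℝ) (σ : Fin m → κ ⊕ ι)
    (hσ : ∀ l, ∃ j, σ j = .inl l) :
    (of fun i j => A i (σ j)).det = (of fun i j => bx g (A i) (σ j)).det := by
  classical
  choose τ hτ using hσ
  let P : Matrix (Fin m) κ ℝ := of fun j l => if j = τ l then 1 else 0
  let Q : Matrix κ (Fin m) ℝ := of fun l j => Sum.elim (fun _ => 0) (fun i => g i l) (σ j)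
  have h1 : Q * P = 0 := by
    ext l l'
    simp [P, Q, mul_apply, hτ]
  have h2 : (of fun i j => bx g (A i) (σ j)) = (of fun i j => A i (σ j)) * (1 - P * Q) := by
    rw [Matrix.mul_sub, Matrix.mul_one, ← Matrix.mul_assoc]
    ext i j
    simp [P, Q, mul_apply, hτ, bx, mul_comm]
  rw [h2, det_mul, det_one_sub_mul_comm, h1, sub_zero, det_one, mul_one]

end bx

end Crest.Agent.N49.La

end
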