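import Crest.Agent.N49.La.Sl2
import Crest.Agent.N49.La.Gn1
import Crest.Agent.N49.Gw.Hol

/-!
# Row 49, lattice layer (helper67): the cost `ρ(Λ*)` of a Gaussian lattice and its rules
-/

set_option autoImplicit false

open Finset Matrix
open scoped Kronecker

noncomputable section

namespace Crest.Agent.N49.La

open Po

variable {d e σ ρ : Type} [Fintype d] [Fintype e] [Fintype σ] [Fintype ρ] [DecidableEq d]
  [DecidableEq e] [DecidableEq σ] [DecidableEq ρ] {M M' : Matrix d d ℝ}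

/-- the (multiplicative) cost: the theta value of the dual lattice -/
def ct (M : Matrix d d ℝ) : ℝ := th M⁻¹ 0

theorem one_le_ct (hM : M.PosDef) : 1 ≤ ct M := one_le_th hM.inv

theorem ct_pos (hM : M.PosDef) : 0 < ct M := th_pos hM.inv 0

theorem ct_eq (hM : M.PosDef) : ct M = th M 0 * √M.det := by
  rw [th_dual hM, dt, mul_right_comm, inv_mul_cancel₀ (Real.sqrt_pos.2 hM.det_pos).ne', one_mul, ct]

theorem sqrt_det_le_ct (hM : M.PosDef) : √M.det ≤ ct M := by
  rw [ct_eq hM]; exact le_mul_of_one_le_left (Real.sqrt_nonneg _) (one_le_th hM)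

theorem th_le_ct (hM : M.PosDef) (θ : d → ℝ) : th M θ ≤ dt M * ct M :=
  (th_le hM θ).trans_eq (th_dual hM)

theorem qf_inv_le (hM : M.PosDef) (hM' : M'.PosDef) (h : ∀ x, qf M x ≤ qf M' x) (k : d → ℝ) :
    qf M'⁻¹ k ≤ qf M⁻¹ k := by
  have e1 : qf M' (M'⁻¹ *ᵥ k) = qf M'⁻¹ k := by
    rw [qf, mulVec_mulVec, mul_nonsing_inv _ hM'.det_pos.ne'.isUnit, one_mulVec, dotProduct_comm,
      qf]
  have a := (dual_sq_le hM (M'⁻¹ *ᵥ k) k).trans
    (mul_le_mul_of_nonneg_left ((h _).trans_eq e1) (qf_nonneg hM.inv k))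
  rcases (qf_nonneg hM'.inv k).eq_or_lt with z | z
  · rw [← z]; exact qf_nonneg hM.inv k
  · exact le_of_mul_le_mul_right (by rw [← sq]; exact a) z

theorem ct_mono (hM : M.PosDef) (hM' : M'.PosDef) (h : ∀ x, qf M x ≤ qf M' x) : ct M ≤ ct M' :=
  th_mono hM'.inv hM.inv (qf_inv_le hM hM' h) 0

/-- shrinking -/
theorem ct_smul (hM : M.PosDef) {t : ℝ} (ht : 1 ≤ t) :
    ct (t • M) ≤ √t ^ Fintype.card d * ct M := by
  have h0 := one_pos.trans_le ht
  have := th_scale hM.inv (inv_pos.2 h0) (inv_le_one_of_one_le₀ ht) 0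
  rwa [Real.sqrt_inv, inv_inv, ← inv_smul' hM h0.ne'] at this

omit [DecidableEq σ] in
/-- sub-sums -/
theorem th_sub (hM : M.PosDef) (B : Matrix d σ ℤ) (hB : Function.Injective B.mulVec) :
    th ((rm B)ᵀ * M * rm B) 0 ≤ th M 0 := by
  have := tsum_comp_le_tsum_of_inj (summable_gs hM 0) (fun _ => (gs_pos _ _).le) hB
  refine le_trans (le_of_eq (tsum_congr fun u => ?_)) this
  simp only [Function.comp, sub_zero, gs, qf_conj, zc_mulVec]

theorem rm_inj {B : Matrix d d ℤ} (hB : B.det ≠ 0) : Function.Injective (rm B).mulVec :=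
  mulVec_injective_iff_isUnit.2 ((isUnit_iff_isUnit_det _).2 (Ne.isUnit (by
    rw [← Int.cast_det]; exact_mod_cast hB)))

omit [DecidableEq d] [DecidableEq σ] in
theorem inj_of_rm {B : Matrix d σ ℤ} (hB : Function.Injective (rm B).mulVec) :
    Function.Injective B.mulVec := fun u v h => by
  have : zc u = zc v := hB (by rw [← zc_mulVec, ← zc_mulVec, h])
  exact funext fun i => Int.cast_injective (congrFun this i)

/-- sublattices of finite index -/
theorem ct_index (hM : M.PosDef) {B : Matrix d d ℤ} (hB : B.det ≠ 0) :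
    ct ((rm B)ᵀ * M * rm B) ≤ |(B.det : ℝ)| * ct M := by
  rw [ct_eq hM, ct_eq (posDef_conj hM (rm_inj hB)), det_mul, det_mul, det_transpose,
    ← Int.cast_det, mul_right_comm, Real.sqrt_mul (mul_self_nonneg _), Real.sqrt_mul_self_eq_abs,
    mul_left_comm]
  gcongr
  exact th_sub hM B (inj_of_rm (rm_inj hB))

/-- the shortest dual vector -/
theorem one_le_ct_qf (hM : M.PosDef) {k : d → ℤ} (hk : k ≠ 0) : 1 ≤ ct M ^ 2 * qf M⁻¹ (zc k) := by
  have h1 : ∀ t : Unit → ℝ, rm (replicateCol Unit k) *ᵥ t = t () • zc k := fun t => by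
    funext i; simp [mulVec, dotProduct, mul_comm, zc]
  have h2 : Function.Injective (rm (replicateCol Unit k)).mulVec := fun s t h => by
    rw [h1, h1] at h
    exact funext fun _ => smul_left_injective ℝ (fun z => hk (funext fun i => by
      simpa [zc] using congrFun z i)) h
  have h3 := posDef_conj hM.inv h2
  have h4 := (dt_le_th h3).trans (th_sub hM.inv _ (inj_of_rm h2))
  have h5 : ((rm (replicateCol Unit k))ᵀ * M⁻¹ * rm (replicateCol Unit k)).det = qf M⁻¹ (zc k) := by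
    have := qf_conj M⁻¹ (rm (replicateCol Unit k)) 1
    rw [h1, Pi.one_apply, one_smul] at this
    rw [← this, det_unique]
    simp [qf, mulVec, dotProduct]
  have h6 := h3.det_pos
  rw [dt, h5, inv_le_iff_one_le_mul₀ (Real.sqrt_pos.2 (h5 ▸ h6))] at h4
  rw [← Real.sq_sqrt (qf_nonneg hM.inv (zc k)), ← mul_pow]
  exact one_le_pow₀ h4

/-- the number of short dual vectors -/
theorem card_le_ct (hM : M.PosDef) {R : ℝ} {S : Finset (d → ℤ)}
    (hS : ∀ k ∈ S, qf M⁻¹ (zc k) ≤ R) : (#S : ℝ) ≤ Real.exp (Real.pi * R) * ct M :=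
  card_le hM.inv 0 fun k hk => by simpa using hS k hk

section
variable {B : Matrix d σ ℤ} {P : Matrix σ d ℤ} {C : Matrix d ρ ℤ} {K : Matrix ρ d ℤ}

theorem Spl.card_eq (h : Spl B P C K) : Fintype.card (σ ⊕ ρ) = Fintype.card d := by
  refine le_antisymm (by simpa using h.card) ?_
  rw [← rank_one (R := ℤ), ← h.sum, ← fromCols_mul_fromRows]
  exact (rank_mul_le_right _ _).trans (rank_le_card_height _)

/-- Jacobi's identity for the covolume of a slice -/
theorem Spl.det (h : Spl B P C K) (hM : M.PosDef) :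
    ((La.rm B)ᵀ * M * La.rm B).det = M.det * (La.rm K * M⁻¹ * (La.rm K)ᵀ).det := by
  have g := h.rm
  obtain ⟨f⟩ := Fintype.card_eq.1 h.card_eq
  have h1 : ((fromCols B C).submatrix id f.symm).det * ((fromRows P K).submatrix f.symm id).det =
      1 := by rw [← det_mul, submatrix_mul_equiv, fromCols_mul_fromRows, h.sum]; simp
  have h2 : (La.rm ((fromCols B C).submatrix id f.symm)).det ^ 2 = 1 := by
    rw [← Int.cast_det]
    exact_mod_cast Int.isUnit_sq (IsUnit.of_mul_eq_one _ h1)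
  have h3 : ((fromCols (La.rm B) (La.rm C))ᵀ * M * fromCols (La.rm B) (La.rm C)).det = M.det := by
    rw [← det_submatrix_equiv_self f.symm,
      show ((fromCols (La.rm B) (La.rm C))ᵀ * M * fromCols (La.rm B) (La.rm C)).submatrix f.symm
        f.symm = (La.rm ((fromCols B C).submatrix id f.symm))ᵀ * M *
          La.rm ((fromCols B C).submatrix id f.symm) by
        rw [← fromCols_map]; rfl, det_mul, det_mul, det_transpose, mul_right_comm, ← sq, h2, one_mul]
  have h4 : fromCols (La.rm B) (La.rm C) * fromBlocks 1 (La.rm P * M⁻¹ * (La.rm K)ᵀ) 0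
      (La.rm K * M⁻¹ * (La.rm K)ᵀ) = fromCols (La.rm B) (M⁻¹ * (La.rm K)ᵀ) := by
    rw [fromCols_mul_fromBlocks, Matrix.mul_one, Matrix.mul_zero, add_zero]
    simp only [← Matrix.mul_assoc, ← Matrix.add_mul, g.sum, Matrix.one_mul]
  have h5 := congrArg (fun X => ((fromCols (La.rm B) (La.rm C))ᵀ * M * X).det) h4
  simp only [← Matrix.mul_assoc] at h5
  rw [det_mul, h3, det_fromBlocks_zero₂₁, det_one, one_mul, Matrix.mul_assoc _ M, mul_fromCols,
    ← Matrix.mul_assoc M, mul_nonsing_inv _ hM.det_pos.ne'.isUnit, Matrix.one_mul,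
    transpose_fromCols, fromRows_mul_fromCols, ← transpose_mul, ← transpose_mul, g.kb, g.kc,
    transpose_zero, transpose_one, det_fromBlocks_zero₁₂, det_one, mul_one] at h5
  rw [h5, Matrix.mul_assoc]

/-- the cost of a slice -/
theorem Spl.ct_le (h : Spl B P C K) (hM : M.PosDef) :
    ct ((La.rm B)ᵀ * M * La.rm B) ≤ √(La.rm K * M⁻¹ * (La.rm K)ᵀ).det * ct M := by
  rw [ct_eq hM, ct_eq (posDef_conj hM h.rm.inj), h.det hM, Real.sqrt_mul hM.det_pos.le,
    ← mul_assoc, mul_comm]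
  gcongr
  exact th_sub hM B h.inj

/-- slicing by one primitive vector costs its dual norm -/
theorem Spl.ct_one {c : Matrix d Unit ℤ} {k : d → ℤ} (h : Spl B P c (replicateRow Unit k))
    (hM : M.PosDef) : ct ((La.rm B)ᵀ * M * La.rm B) ≤ √(qf M⁻¹ (zc k)) * ct M := by
  refine (h.ct_le hM).trans_eq ?_
  rw [det_unique, Matrix.mul_assoc]
  rfl

/-- slicing by `r` vectors of dual norm at most `√T` -/
theorem Spl.ct_fin {r : ℕ} {C : Matrix d (Fin r) ℤ} {K : Matrix (Fin r) d ℤ} (h : Spl B P C K)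
    (hM : M.PosDef) {T : ℝ} (hT : ∀ a, qf M⁻¹ (zc (K a)) ≤ T) :
    ct ((La.rm B)ᵀ * M * La.rm B) ≤ √(r.factorial * T ^ r) * ct M := by
  refine (h.ct_le hM).trans (mul_le_mul_of_nonneg_right (Real.sqrt_le_sqrt
    ((le_abs_self _).trans ((det_bd _ (fun _ => T) fun a b => ?_).trans (by simp))))
      (ct_pos hM).le)
  have h0 := (qf_nonneg hM.inv _).trans (hT a)
  refine abs_le_of_sq_le_sq ?_ h0
  rw [Matrix.mul_assoc, sq T]
  exact (dot_sq_le hM.inv (zc (K a)) (zc (K b))).trans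
    (mul_le_mul (hT a) (hT b) (qf_nonneg hM.inv _) h0)

end

section ext

/-- new coordinates `u ≈ Γ x` with form `W` -/
def ex (M : Matrix d d ℝ) (W : Matrix e e ℝ) (Γ : Matrix e d ℝ) : Matrix (d ⊕ e) (d ⊕ e) ℝ :=
  (fromBlocks 1 0 (-Γ) 1)ᵀ * fromBlocks M 0 0 W * fromBlocks 1 0 (-Γ) 1

variable {W : Matrix e e ℝ}

theorem qf_ex (M : Matrix d d ℝ) (W : Matrix e e ℝ) (Γ : Matrix e d ℝ) (y : d ⊕ e → ℝ) :
    qf (ex M W Γ) y = qf M (y ∘ .inl) + qf W (y ∘ .inr - Γ *ᵥ (y ∘ .inl)) := by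
  rw [ex, qf_conj, qf, fromBlocks_mulVec, fromBlocks_mulVec]
  simp [sumElim_dotProduct_sumElim, qf, neg_mulVec, sub_eq_neg_add]

theorem det_ex (M : Matrix d d ℝ) (W : Matrix e e ℝ) (Γ : Matrix e d ℝ) :
    (ex M W Γ).det = M.det * W.det := by
  simp [ex]

theorem posDef_ex (hM : M.PosDef) (hW : W.PosDef) (Γ : Matrix e d ℝ) : (ex M W Γ).PosDef := by
  refine posDef_conj (PosDef.of_dotProduct_mulVec_pos (hM.1.fromBlocks (by simp) hW.1) fun x hx => ?_)
    (mulVec_injective_iff_isUnit.2 ((isUnit_iff_isUnit_det _).2 (by simp)))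
  have e1 := qf_ex M W 0 x
  simp only [ex, neg_zero, fromBlocks_one, transpose_one, Matrix.one_mul, Matrix.mul_one,
    zero_mulVec, sub_zero] at e1
  refine lt_of_lt_of_eq ?_ e1.symm
  by_cases h : x ∘ .inl = 0
  · exact add_pos_of_nonneg_of_pos (qf_nonneg hM _) (hW.dotProduct_mulVec_pos fun z => hx
      (funext fun j => j.rec (congrFun h) (congrFun z)))
  · exact add_pos_of_pos_of_nonneg (hM.dotProduct_mulVec_pos h) (qf_nonneg hW _)

theorem th_ex (hM : M.PosDef) (hW : W.PosDef) (Γ : Matrix e d ℝ) :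
    th (ex M W Γ) 0 = ∑' n : d → ℤ, gs M (zc n) * th W (Γ *ᵥ zc n) := by
  have s := (Equiv.sumArrowEquivProdArrow d e ℤ).symm.summable_iff.2
    (summable_gs (posDef_ex hM hW Γ) 0)
  rw [th, ← (Equiv.sumArrowEquivProdArrow d e ℤ).symm.tsum_eq]
  refine s.tsum_prod.trans (tsum_congr fun n => ?_)
  rw [th, ← tsum_mul_left]
  refine tsum_congr fun u => ?_
  simp only [Function.comp, gs, sub_zero, qf_ex, mul_add, neg_add, Real.exp_add]
  rfl

/-- the cost of new coordinates -/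
theorem ct_ex (hM : M.PosDef) (hW : W.PosDef) (Γ : Matrix e d ℝ) :
    ct (ex M W Γ) ≤ ct M * ct W := by
  have s : Summable fun n : d → ℤ => gs M (zc n) := by simpa using summable_gs hM 0
  have h : th (ex M W Γ) 0 ≤ th M 0 * th W 0 := by
    have k := fun n : d → ℤ => mul_le_mul_of_nonneg_left (th_le hW (Γ *ᵥ zc n)) (gs_pos M (zc n)).le
    rw [th_ex hM hW, th, ← tsum_mul_right]
    simp only [sub_zero]
    exact (Summable.of_nonneg_of_le (fun n => mul_nonneg (gs_pos _ _).le (th_nonneg _ _)) k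
      (s.mul_right _)).tsum_le_tsum k (s.mul_right _)
  rw [ct_eq hM, ct_eq hW, ct_eq (posDef_ex hM hW Γ), det_ex, Real.sqrt_mul hM.det_pos.le,
    mul_mul_mul_comm]
  gcongr

end ext

omit [DecidableEq d] in
theorem qf_one_kron (M : Matrix d d ℝ) (y : e × d → ℝ) :
    qf ((1 : Matrix e e ℝ) ⊗ₖ M) y = ∑ a, qf M fun i => y (a, i) := by
  simp [qf, dotProduct, mulVec, Fintype.sum_prod_type, one_apply]

theorem th_one_kron (hM : M.PosDef) :
    th ((1 : Matrix e e ℝ) ⊗ₖ M) 0 = th M 0 ^ Fintype.card e := by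
  have := (Gw.hasSum_pi_prod (ι := e) (fun _ n => gs M (zc n - 0)) fun _ => summable_gs hM 0).tsum_eq
  rw [prod_const, card_univ] at this
  rw [th, ← (Equiv.curry e d ℤ).symm.tsum_eq, th, ← this]
  refine tsum_congr fun v => ?_
  simp only [gs, sub_zero, qf_one_kron, mul_sum, ← sum_neg_distrib, Real.exp_sum]
  rfl

/-- the cost of a shape with `card e` words and a kernel `Q ≤ b` -/
theorem ct_kron (hM : M.PosDef) {Q : Matrix e e ℝ} (hQ : Q.PosDef) {b : ℝ} (hb : 0 < b)
    (h : (b • (1 : Matrix e e ℝ) - Q).PosSemidef) :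
    ct (Q ⊗ₖ M) ≤ ct (b • M) ^ Fintype.card e := by
  have h1 := hM.smul hb
  refine (ct_mono (hQ.kronecker hM) (PosDef.one.kronecker h1) fun x => ?_).trans_eq ?_
  · have := (h.kronecker hM.posSemidef).dotProduct_mulVec_nonneg x
    rw [show (b • (1 : Matrix e e ℝ) - Q) ⊗ₖ M = (1 : Matrix e e ℝ) ⊗ₖ (b • M) - Q ⊗ₖ M by
      ext i j; simp; ring, sub_mulVec, dotProduct_sub] at this
    exact sub_nonneg.1 this
  · rw [ct, inv_kronecker, inv_one, th_one_kron h1.inv, ct]

end Crest.Agent.N49.La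

end
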