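import Crest.Agent.N49.La.Sl

/-!
# Row 49, lattice layer (helper67): number of slices, projections, dense central slices
-/

set_option autoImplicit false

open Finset Matrix

noncomputable section

namespace Crest.Agent.N49.La

open Po

variable {d σ ρ : Type} [Fintype d] [Fintype σ] [Fintype ρ] [DecidableEq d] [DecidableEq σ]
  [DecidableEq ρ]

/-- Siegel's lemma for `D` equations in `D + 1` unknowns -/
theorem siegel {Δ : Type} [Fintype Δ] (A : Matrix Δ (Fin (Fintype.card Δ + 1)) ℤ) {X : ℝ}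
    (hX : 1 ≤ X) (hA : ∀ i j, |(A i j : ℝ)| ≤ X) : ∃ t : Fin (Fintype.card Δ + 1) → ℤ, t ≠ 0 ∧
      A *ᵥ t = 0 ∧ ∀ j, |(t j : ℝ)| ≤ ((Fintype.card Δ + 1) * X) ^ Fintype.card Δ := by
  rcases isEmpty_or_nonempty Δ with h | h
  · exact ⟨1, one_ne_zero, Subsingleton.elim _ _, by simp⟩
  let := @Matrix.seminormedAddCommGroup Δ (Fin (Fintype.card Δ + 1)) ℤ _ _ _
  obtain ⟨t, t0, t1, t2⟩ := Int.Matrix.exists_ne_zero_int_vec_norm_le A (by simp) Fintype.card_pos
  refine ⟨t, t0, t1, fun j => (norm_le_pi_norm t j).trans (t2.trans ?_)⟩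
  simp only [Fintype.card_fin, Nat.cast_add, Nat.cast_one, add_sub_cancel_left, div_one,
    Real.rpow_natCast]
  gcongr
  exact max_le hX ((Matrix.norm_le_iff (zero_le_one.trans hX)).2 hA)

/-- over a very smooth lattice `Λ`, at most `card Δ` slices are made in `Λ ⊕ Δ` -/
theorem Spl.rank_le {Λ Δ : Type} [Fintype Λ] [Fintype Δ] [DecidableEq Λ] [DecidableEq Δ]
    {B : Matrix (Λ ⊕ Δ) σ ℤ} {P : Matrix σ (Λ ⊕ Δ) ℤ} {C : Matrix (Λ ⊕ Δ) ρ ℤ}
    {K : Matrix ρ (Λ ⊕ Δ) ℤ} (h : Spl B P C K) {M : Matrix (Λ ⊕ Δ) (Λ ⊕ Δ) ℝ} (hM : M.PosDef)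
    {T X : ℝ} (hT : ∀ a, qf M⁻¹ (zc (K a)) ≤ T) (hX : 1 ≤ X)
    (hw : ∀ i, T * M (.inr i) (.inr i) ≤ X ^ 2)
    (hb : ∀ k : Λ ⊕ Δ → ℤ, k ≠ 0 → (∀ i, k (.inr i) = 0) →
      ((Fintype.card Δ + 1) * ((Fintype.card Δ + 1) * X) ^ Fintype.card Δ) ^ 2 * T <
        qf M⁻¹ (zc k)) : Fintype.card ρ ≤ Fintype.card Δ := by
  by_contra hc
  obtain ⟨f⟩ : Nonempty (Fin (Fintype.card Δ + 1) ↪ ρ) :=
    Function.Embedding.nonempty_of_card_le (by simpa using hc)
  obtain ⟨t, t0, t1, t2⟩ := siegel (of fun i j => K (f j) (.inr i)) hX fun i j => by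
    have a := dual_sq_le hM (Pi.single (.inr i) 1) (zc (K (f j)))
    have b : qf M (Pi.single (.inr i) 1) = M (.inr i) (.inr i) := by simp [qf]
    have c := qf_nonneg hM (Pi.single (.inr i) 1)
    rw [b] at a c
    refine abs_le_of_sq_le_sq ?_ (zero_le_one.trans hX)
    exact le_trans (by simpa [zc] using a) ((mul_le_mul_of_nonneg_right (hT _) c).trans (hw i))
  set H := ((Fintype.card Δ + 1) * X) ^ Fintype.card Δ
  have h0 : 0 ≤ T := (qf_nonneg hM.inv _).trans (hT (f 0))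
  have hH : 0 ≤ H := (abs_nonneg _).trans (t2 0)
  refine (hb (t ᵥ* K.submatrix f id) (fun e => t0 (funext fun j => ?_)) fun i => ?_).not_ge ?_
  · have := congrFun (congrArg (· ᵥ* C) e) (f j)
    simp only [vecMul_vecMul] at this
    rw [show K.submatrix f id * C = (K * C).submatrix f id from rfl, h.kc] at this
    simpa [vecMul, dotProduct, one_apply] using this
  · simpa [vecMul, mulVec, dotProduct, mul_comm] using congrFun t1 i
  · have a : nq hM.inv (zc (t ᵥ* K.submatrix f id)) ≤ (Fintype.card Δ + 1) * H * √T := by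
      rw [show zc (t ᵥ* K.submatrix f id) = ∑ j, (t j : ℝ) • zc (K (f j)) by
        funext i; simp [zc, vecMul, dotProduct]]
      refine (le_sum_of_subadditive _ (map_zero _).le (map_add_le_add _) _ _).trans ((sum_le_card_nsmul _ _ (H * √T)
        fun j _ => ?_).trans (by simp [mul_assoc]))
      rw [map_smul_eq_mul, nq_apply]
      exact mul_le_mul (t2 j) (Real.sqrt_le_sqrt (hT _)) (by positivity) hH
    rw [nq_apply, Real.sqrt_le_iff, mul_pow, Real.sq_sqrt h0] at a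
    exact a.2

section
variable {B : Matrix d σ ℝ} {P : Matrix σ d ℝ} {C : Matrix d ρ ℝ} {K : Matrix ρ d ℝ}
  {M : Matrix d d ℝ}

/-- the slice coordinates are the orthogonal projection plus a function of the relations -/
theorem Spl.proj (h : Spl B P C K) (hM : M.PosDef) : ∃ (Q : Matrix σ d ℝ) (G : Matrix σ ρ ℝ),
    P = Q + G * K ∧ ∀ y, qf (Bᵀ * M * B) (Q *ᵥ y) ≤ qf M y := by
  have hu := (posDef_conj hM h.inj).det_pos.ne'.isUnit
  refine ⟨(Bᵀ * M * B)⁻¹ * (Bᵀ * M), -((Bᵀ * M * B)⁻¹ * (Bᵀ * M) * C), ?_, fun y => ?_⟩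
  · have : (Bᵀ * M * B)⁻¹ * (Bᵀ * M) * (B * P + C * K) = (Bᵀ * M * B)⁻¹ * (Bᵀ * M) := by
      rw [h.sum, Matrix.mul_one]
    rw [Matrix.mul_add, ← Matrix.mul_assoc, Matrix.mul_assoc _ _ B, nonsing_inv_mul _ hu,
      Matrix.one_mul, ← Matrix.mul_assoc] at this
    rw [Matrix.neg_mul, ← sub_eq_add_neg]
    exact eq_sub_of_add_eq this
  · have := qf_proj hM h.inj y 0
    rw [mulVec_zero, zero_sub, zero_sub, qf_neg, qf_neg, mulVec_mulVec, mulVec_mulVec] at this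
    rw [this, ← Matrix.mul_assoc]
    exact le_add_of_nonneg_right (qf_nonneg hM _)

/-- a functional that is small on the slice is small modulo the relations -/
theorem Spl.ext (h : Spl B P C K) (hM : M.PosDef) (ξ : d → ℝ) (m : σ → ℝ) : ∃ e : ρ → ℝ,
    qf M⁻¹ (ξ - m ᵥ* P - e ᵥ* K) = qf (Bᵀ * M * B)⁻¹ (ξ ᵥ* B - m) := by
  obtain ⟨t, ht⟩ := h.qf_ext hM (ξ ᵥ* B - m)
  refine ⟨ξ ᵥ* C - t, ?_⟩
  have := ht t
  rw [sub_self, zero_vecMul, qf_zero, add_zero] at this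
  rw [← this, sub_vecMul, sub_vecMul]
  congr 1
  linear_combination (exp := 1) h.dual ξ

end

/-- sums over the lattice split along the slices -/
theorem Spl.tsum {B : Matrix d σ ℤ} {P : Matrix σ d ℤ} {C : Matrix d ρ ℤ} {K : Matrix ρ d ℤ}
    (h : Spl B P C K) {F : (d → ℤ) → ℝ} (hF : Summable F) :
    (∀ c, Summable fun u => F (B *ᵥ u + C *ᵥ c)) ∧
      HasSum (fun c => ∑' u, F (B *ᵥ u + C *ᵥ c)) (∑' y, F y) := by
  have s := h.equiv.summable_iff.2 hF
  refine ⟨fun c => s.prod_factor c, ?_⟩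
  rw [← h.equiv.tsum_eq]
  exact s.hasSum.prod_fiberwise fun c => (s.prod_factor c).hasSum

/-- a dense and heavy member of a mixture inside a finite set carrying most of the mass -/
theorem dense_member {γ : Type*} {a b : γ → ℝ} {A B τ : ℝ} (ha : HasSum a A) (hb : HasSum b B)
    (h0 : ∀ c, 0 ≤ a c) (h1 : ∀ c, b c ≤ a c) (hτ : 0 < τ) (hA : 0 < A) (hB : τ * A ≤ B)
    (Z : Finset γ) (hZ : A - ∑ c ∈ Z, a c ≤ τ / 4 * A) :
    ∃ c ∈ Z, τ / 2 * a c ≤ b c ∧ τ * A ≤ 4 * #Z * b c := by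
  by_contra hc
  push Not at hc
  have e1 : B - ∑ c ∈ Z, b c ≤ A - ∑ c ∈ Z, a c := by
    have := sum_le_hasSum Z (fun c _ => sub_nonneg.2 (h1 c)) (ha.sub hb)
    rw [sum_sub_distrib] at this
    linarith
  have e2 := sum_le_hasSum Z (fun c _ => h0 c) ha
  have hp := mul_pos hτ hA
  rcases Z.eq_empty_or_nonempty with rfl | hne
  · simp only [sum_empty] at e1 hZ
    have := hasSum_le h1 hb ha
    nlinarith
  have hz : (0 : ℝ) < #Z := by exact_mod_cast hne.card_pos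
  have e3 : ∑ c ∈ Z, b c < ∑ c ∈ Z, (τ / 2 * a c + τ * A / (4 * #Z)) :=
    sum_lt_sum_of_nonempty hne fun c hc' => by
      have p : 0 < τ * A / (4 * #Z) := by positivity
      have := mul_nonneg (half_pos hτ).le (h0 c)
      by_cases g : τ / 2 * a c ≤ b c
      · have := (lt_div_iff₀' (by positivity)).2 (hc c hc' g)
        linarith
      · linarith [not_le.1 g]
  rw [sum_add_distrib, ← mul_sum, sum_const, nsmul_eq_mul,
    show #Z * (τ * A / (4 * #Z)) = τ * A / 4 by field_simp] at e3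
  nlinarith

end Crest.Agent.N49.La

end
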