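import Mathlib

/-!
# Row 49, lattice layer (helper17): integer generalised inverse
-/

set_option autoImplicit false

open Finset Matrix

namespace Crest.Agent.N49.La.Gi

variable {m n : Type*}

/-- selection matrix -/
def sel [DecidableEq n] {r : ℕ} (σ : Fin r → n) : Matrix n (Fin r) ℤ :=
  of fun j a => if σ a = j then 1 else 0

theorem mul_sel [Fintype n] [DecidableEq n] {r : ℕ} (σ : Fin r → n) (B : Matrix m n ℤ) :
    B * sel σ = B.submatrix id σ := by
  ext i a
  simp [sel, mul_apply]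

theorem sel_le [DecidableEq n] {r : ℕ} {σ : Fin r → n} (hσ : Function.Injective σ)
    {X : Matrix (Fin r) m ℤ} {D : ℤ} (h0 : 0 ≤ D) (h : ∀ a c, |X a c| ≤ D) (j : n) (c : m) :
    |(sel σ * X) j c| ≤ D := by
  by_cases k : ∃ a, σ a = j
  · obtain ⟨a, rfl⟩ := k
    simpa [sel, mul_apply, hσ.eq_iff] using h a c
  · push Not at k
    simpa [sel, mul_apply, k] using h0

theorem det_abs {r R : ℕ} (hr : r ≤ R) {K : ℕ} (hK : 1 ≤ K) {M : Matrix (Fin r) (Fin r) ℤ}
    (h : ∀ i j, |M i j| ≤ K) : |M.det| ≤ (R.factorial * K ^ R : ℕ) := by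
  have := Matrix.det_le (A := M) (abv := AbsoluteValue.abs) (x := (K : ℤ)) h
  simp only [AbsoluteValue.abs_apply, Fintype.card_fin, nsmul_eq_mul] at this
  refine this.trans ?_
  exact_mod_cast Nat.mul_le_mul (Nat.factorial_le hr) (Nat.pow_le_pow_right hK hr)

theorem border {r : ℕ} (M : Matrix (Fin r) (Fin r) ℤ) (hM : M.det ≠ 0) (u v : Fin r → ℤ) (c : ℤ)
    (h : (fromBlocks (of fun _ _ : Fin 1 => c) (of fun _ b => u b) (of fun a _ => v a) M).det = 0) :
    u ᵥ* M.adjugate ⬝ᵥ v = M.det * c := by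
  have e : fromBlocks (of fun _ _ : Fin 1 => c) (of fun _ b => u b) (of fun a _ => v a) M *
      fromBlocks (of fun _ _ : Fin 1 => M.det) 0 (-(M.adjugate * of fun a _ => v a)) 1 =
      fromBlocks (of fun _ _ : Fin 1 => M.det * c - u ᵥ* M.adjugate ⬝ᵥ v) (of fun _ b => u b) 0 M := by
    rw [fromBlocks_multiply]
    congr 1
    · ext i j
      simp [mul_apply, vecMul, dotProduct, Finset.mul_sum, mul_comm, mul_left_comm]
      rw [Finset.sum_comm, sub_eq_add_neg]
    · simp
    · rw [Matrix.mul_neg, ← Matrix.mul_assoc, mul_adjugate, Matrix.smul_mul, Matrix.one_mul]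
      ext i j
      simp [mul_apply, mul_comm]
    · simp
  have := congrArg det e
  rw [det_mul, h, zero_mul, det_fromBlocks_zero₂₁] at this
  have h2 := (mul_eq_zero.1 this.symm).resolve_right hM
  simp only [det_unique, of_apply] at h2
  linarith

end Gi

open Gi in
/-- **GI**: an integer matrix has a bounded integer generalised inverse -/
theorem gi {m n : Type*} [Fintype m] [Fintype n] (B : Matrix m n ℤ) {K R : ℕ} (hK : 1 ≤ K)
    (hR : Fintype.card m ≤ R ∨ Fintype.card n ≤ R) (h : ∀ i j, |B i j| ≤ K) :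
    ∃ (q : ℕ) (C : Matrix n m ℤ), 1 ≤ q ∧ q ≤ R.factorial * K ^ R ∧
      (∀ j i, |C j i| ≤ (R.factorial * K ^ R : ℕ)) ∧ B * C * B = (q : ℤ) • B := by
  classical
  let P : ℕ → Prop := fun r => ∃ (ρ : Fin r → m) (σ : Fin r → n), (B.submatrix ρ σ).det ≠ 0
  have inj : ∀ {r} {ρ : Fin r → m} {σ : Fin r → n}, (B.submatrix ρ σ).det ≠ 0 →
      Function.Injective ρ ∧ Function.Injective σ := fun {r ρ σ} hd =>
    ⟨fun a b e => by_contra fun k => hd (det_zero_of_row_eq k (funext fun j => by simp [e])),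
      fun a b e => by_contra fun k => hd (det_zero_of_column_eq k fun j => by simp [e])⟩
  obtain ⟨r, er, ρ, σ, hd⟩ : ∃ r, r = Nat.findGreatest P (R + 1) ∧ P r :=
    ⟨_, rfl, Nat.findGreatest_spec (m := 0) (Nat.zero_le _) ⟨Fin.elim0, Fin.elim0, by simp⟩⟩
  obtain ⟨iρ, iσ⟩ := inj hd
  have hr : r ≤ R := hR.elim
    (fun k => (by simpa using Fintype.card_le_of_injective ρ iρ : r ≤ _).trans k)
    fun k => (by simpa using Fintype.card_le_of_injective σ iσ : r ≤ _).trans k
  have hn : ¬ P (r + 1) := Nat.findGreatest_is_greatest (n := R + 1) (by omega) (by omega)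
  set M := B.submatrix ρ σ with hM
  have key : B.submatrix id σ * M.adjugate * B.submatrix ρ id = M.det • B := by
    ext i j
    have e : Fin 1 ⊕ Fin r ≃ Fin (r + 1) := finSumFinEquiv.trans (finCongr (Nat.add_comm _ _))
    have := border M hd (fun b => B i (σ b)) (fun a => B (ρ a) j) (B i j) (by
      by_contra k
      refine hn ⟨Sum.elim (fun _ => i) ρ ∘ e.symm, Sum.elim (fun _ => j) σ ∘ e.symm, ?_⟩
      rw [← submatrix_submatrix, det_submatrix_equiv_self]
      convert k using 2
      ext (a | a) (b | b) <;> rfl)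
    exact this
  refine ⟨M.det.natAbs, M.det.sign • (sel σ * (sel ρ * M.adjugateᵀ)ᵀ), Int.natAbs_pos.2 hd, ?_,
    fun j i => ?_, ?_⟩
  · have := det_abs hr hK (M := M) fun _ _ => h _ _
    rw [← Int.natCast_natAbs] at this
    exact_mod_cast this
  · have a : ∀ a b, |M.adjugate a b| ≤ (R.factorial * K ^ R : ℕ) := fun a b => by
      rw [adjugate_apply]
      refine det_abs hr hK fun i j => ?_
      rw [updateRow_apply]
      split_ifs
      · rw [Pi.single_apply]
        split_ifs <;> simp <;> exact_mod_cast hK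
      · exact h _ _
    rw [Matrix.smul_apply, smul_eq_mul, abs_mul, Int.abs_sign_of_ne_zero hd, one_mul]
    exact sel_le iσ (by positivity) (fun b c => sel_le iρ (by positivity) (fun c b => a b c) c b) j i
  · have e1 : (sel ρ)ᵀ * B = B.submatrix ρ id := by
      rw [← transpose_transpose B, ← transpose_mul, mul_sel]; rfl
    rw [Matrix.mul_smul, Matrix.smul_mul, transpose_mul, transpose_transpose, ← Matrix.mul_assoc,
      ← Matrix.mul_assoc, mul_sel, Matrix.mul_assoc _ (sel ρ)ᵀ, e1, key, smul_smul,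
      Int.sign_mul_self_eq_natAbs]

end Crest.Agent.N49.La
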