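import Crest.Agent.N49.La.Gn1

/-!
# Row 49, lattice layer (helper67): the geometry-of-numbers lemma GN
-/

set_option autoImplicit false

open Finset Module Matrix

noncomputable section

namespace Crest.Agent.N49.La

variable {κ ι : Type*} [Fintype κ] [Fintype ι]

/-- the box `|w| ≤ W`, `|u - g w| ≤ 1` -/
def Bx (g : ι → κ → ℝ) (W : κ → ℝ) (y : κ ⊕ ι → ℝ) : Prop :=
  (∀ l, |y (.inl l)| ≤ W l) ∧ ∀ i, |y (.inr i) - ∑ l, g i l * y (.inl l)| ≤ 1

omit [Fintype ι] in
theorem Bx.le {g : ι → κ → ℝ} {W : κ → ℝ} {y : κ ⊕ ι → ℝ} (h : Bx g W y) (j : κ ⊕ ι) :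
    |bx g y j| ≤ Sum.elim W (fun _ => 1) j := by
  rcases j with l | i
  · simpa using h.1 l
  · exact h.2 i

omit [Fintype ι] in
theorem bx_comb (g : ι → κ → ℝ) {r : ℕ} (V : Matrix (Fin r) (κ ⊕ ι) ℝ) (c : Fin r → ℝ)
    (y : κ ⊕ ι → ℝ) (j : κ ⊕ ι) :
    bx g (c ᵥ* V + y) j = ∑ i, c i * bx g (V i) j + bx g y j := by
  simp only [bx, vecMul, dotProduct, Pi.add_apply, mul_add, mul_sub, sum_add_distrib,
    sum_sub_distrib, mul_sum]
  rw [sum_comm]
  simp only [mul_left_comm (c _)]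
  ring

/-- the index of the lattice generated by many points of a box in its saturation -/
theorem idx (g : ι → κ → ℝ) (W : κ → ℝ) (hW : ∀ l, 1 ≤ W l) (S : Finset (κ ⊕ ι → ℤ))
    (hS : S.Nonempty) (h : ∀ Y ∈ S, Bx g W (ci Y)) {r : ℕ} (v : Matrix (Fin r) (κ ⊕ ι) ℤ)
    (hv : ∀ i, v i ∈ S) : ∃ q : ℕ, 0 < q ∧
      (q * #S : ℝ) ≤ (2 * r + 3) ^ Fintype.card (κ ⊕ ι) * ∏ l, W l ∧
      ∀ Y (c : Fin r → ℝ), ci Y = c ᵥ* v.map (↑) →
        q • Y ∈ Submodule.span ℤ (S : Set (κ ⊕ ι → ℤ)) := by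
  classical
  set V : Matrix (Fin r) (κ ⊕ ι) ℝ := v.map (↑)
  let Λ := sat (LinearMap.range V.vecMulLinear)
  let L := (Submodule.span ℤ (S : Set (κ ⊕ ι → ℤ))).comap Λ.subtype
  have hp : ∀ x : Λ ⧸ L, ∃ p : Λ, L.mkQ p = x ∧ ∃ c : Fin r → ℝ, (∀ i, |c i| ≤ 1) ∧
      ci p.1 = c ᵥ* V := fun x => by
    obtain ⟨y, rfl⟩ := L.mkQ_surjective x
    obtain ⟨c, hc⟩ := y.2
    have e : ci (∑ i, ⌊c i⌋ • v i) = (fun i => (⌊c i⌋ : ℝ)) ᵥ* V := by
      funext j; simp [vecMul, dotProduct, V]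
    refine ⟨y - ⟨∑ i, ⌊c i⌋ • v i, _, e.symm⟩, (Submodule.Quotient.eq L).2 ?_,
      fun i => Int.fract (c i), fun i => ?_, ?_⟩
    · rw [sub_sub_cancel_left, neg_mem_iff]
      change ∑ i, ⌊c i⌋ • v i ∈ Submodule.span ℤ (S : Set (κ ⊕ ι → ℤ))
      exact Submodule.sum_mem _ fun i _ => Submodule.smul_mem _ _ (Submodule.subset_span (hv i))
    · rw [abs_of_nonneg (Int.fract_nonneg _)]; exact (Int.fract_lt_one _).le
    · rw [Submodule.coe_sub, map_sub, e]
      exact (congrArg (· - _) hc.symm).trans (sub_vecMul V c _).symm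
  choose p p1 c c1 c2 using hp
  have hb : ∀ x (Y : S) j, |bx g (ci ((p x).1 + Y.1)) j| ≤ (r + 1) * Sum.elim W (fun _ => 1) j :=
    fun x Y j => by
      rw [map_add, c2, bx_comb, add_mul, one_mul]
      refine (abs_add_le _ _).trans (add_le_add ((abs_sum_le_sum_abs _ _).trans
        ((sum_le_card_nsmul _ _ _ fun i _ => ?_).trans (by simp; rfl))) ((h _ Y.2).le j))
      rw [abs_mul]
      exact (mul_le_of_le_one_left (abs_nonneg _) (c1 x i)).trans ((h _ (hv i)).le j)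
  let T := Fintype.piFinset fun j : κ ⊕ ι =>
    Sum.elim (fun l => Icc (-⌊(r + 1) * W l⌋) ⌊(r + 1) * W l⌋) (fun _ => Icc (-(r + 1) : ℤ) (r + 1)) j
  let F : (κ ⊕ ι → ℤ) → κ ⊕ ι → ℤ := fun Z =>
    Sum.elim (fun l => Z (.inl l)) fun i => Z (.inr i) - ⌊∑ l, g i l * Z (.inl l)⌋
  have hF : Function.Injective F := fun Z Z' e => by
    have e1 : ∀ l, Z (.inl l) = Z' (.inl l) := fun l => congrFun e (.inl l)
    funext j
    rcases j with l | i
    · exact e1 l
    · have := congrFun e (.inr i)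
      simp only [F, Sum.elim_inr, e1] at this
      exact sub_left_injective this
  have hT : ∀ x (Y : S), F ((p x).1 + Y.1) ∈ T := fun x Y => Fintype.mem_piFinset.2 fun j => by
    have a := abs_le.1 (hb x Y j)
    generalize (p x).1 + Y.1 = Z at a
    rcases j with l | i
    · simp only [bx_inl, ci_apply, Sum.elim_inl] at a
      simp only [F, Sum.elim_inl, mem_Icc]
      exact ⟨neg_le.1 (Int.le_floor.2 (by push_cast; linarith)), Int.le_floor.2 a.2⟩
    · simp only [bx_inr, ci_apply, Sum.elim_inr, mul_one] at a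
      simp only [F, Sum.elim_inr, mem_Icc]
      have a1 := Int.floor_le (∑ l, g i l * Z (.inl l))
      have a2 := Int.lt_floor_add_one (∑ l, g i l * Z (.inl l))
      exact ⟨Int.cast_le.1 (show ((_ : ℤ) : ℝ) ≤ (_ : ℤ) by push_cast; linarith),
        Int.lt_add_one_iff.1 (Int.cast_lt.1 (show ((_ : ℤ) : ℝ) < (_ : ℤ) by push_cast; linarith))⟩
  have hΛ : ∀ x x' (Y Y' : S), (p x).1 + Y.1 = (p x').1 + Y'.1 → x = x' := fun x x' Y Y' e => by
    rw [← p1 x, ← p1 x']
    refine (Submodule.Quotient.eq L).2 ?_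
    change (p x).1 - (p x').1 ∈ Submodule.span ℤ (S : Set (κ ⊕ ι → ℤ))
    rw [show (p x).1 - (p x').1 = Y'.1 - Y.1 by linear_combination e]
    exact sub_mem (Submodule.subset_span Y'.2) (Submodule.subset_span Y.2)
  have hi : Function.Injective fun z : (Λ ⧸ L) × S => (⟨_, hT z.1 z.2⟩ : T) := fun z z' e => by
    have e1 := hF (Subtype.ext_iff.1 e)
    have e2 := hΛ _ _ _ _ e1
    rw [e2] at e1
    exact Prod.ext e2 (Subtype.ext (add_left_cancel e1))
  have : Finite ((Λ ⧸ L) × S) := Finite.of_injective _ hi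
  have : Finite (Λ ⧸ L) := Finite.of_injective (fun x => (x, (⟨_, hS.choose_spec⟩ : S)))
    fun _ _ e => (Prod.ext_iff.1 e).1
  refine ⟨Nat.card (Λ ⧸ L), Nat.card_pos, ?_, fun Y c e => ?_⟩
  · have a := Nat.card_le_card_of_injective _ hi
    rw [Nat.card_prod, Nat.card_eq_finsetCard, Nat.card_eq_finsetCard] at a
    refine (Nat.cast_mul _ _).ge.trans ((Nat.cast_le.2 a).trans ?_)
    rw [Fintype.card_piFinset, Fintype.prod_sum_type, Fintype.card_sum, pow_add, mul_right_comm,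
      ← card_univ, ← prod_const, ← prod_mul_distrib]
    simp only [Sum.elim_inl, Sum.elim_inr, Int.card_Icc, prod_const, card_univ, Nat.cast_mul,
      Nat.cast_prod, Nat.cast_pow]
    have h0 : (0 : ℝ) ≤ r := r.cast_nonneg
    refine mul_le_mul (prod_le_prod (fun _ _ => Nat.cast_nonneg _) fun l _ => ?_)
      (pow_le_pow_left₀ (Nat.cast_nonneg _) ?_ _) (by positivity)
      (prod_nonneg fun l _ => by have := hW l; positivity)
    · have a1 := Int.floor_le ((r + 1) * W l)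
      have a2 : 0 ≤ ⌊(r + 1) * W l⌋ := Int.floor_nonneg.2 (by have := hW l; positivity)
      rw [← Int.cast_natCast, Int.toNat_of_nonneg (by omega)]
      push_cast
      nlinarith [hW l]
    · rw [← Int.cast_natCast, Int.toNat_of_nonneg (by omega)]
      push_cast
      linarith
  · have a : Nat.card (Λ ⧸ L) • L.mkQ ⟨Y, c, e.symm⟩ = 0 := card_nsmul_eq_zero'
    rw [← map_nsmul] at a
    exact (Submodule.Quotient.mk_eq_zero L).1 a

/-- **GN**: many lattice points in a box satisfy short relations that cut out their span -/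
theorem gn (g : ι → κ → ℝ) (W : κ → ℝ) (hW : ∀ l, 1 ≤ W l) (S : Finset (κ ⊕ ι → ℤ))
    (hS : S.Nonempty) (h : ∀ Y ∈ S, Bx g W (ci Y))
    (h3 : ∀ a : κ → ℝ, (∀ Y ∈ S, ∑ l, a l * Y (.inl l) = 0) → a = 0) {n : ℕ}
    (hn : Fintype.card κ + Fintype.card ι ≤ n) :
    ∃ (q : ℕ) (k : ι → κ ⊕ ι → ℤ), 0 < q ∧ (q * #S : ℝ) ≤ (2 * n + 3) ^ n * ∏ l, W l ∧
      (∀ a, ∀ Y ∈ S, ∑ j, k a j * Y j = 0) ∧
      (∀ a y, Bx g W y → |∑ j, k a j * y j| * #S ≤ n.factorial * 3 ^ n * ∏ l, W l) ∧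
      (∀ y : κ ⊕ ι → ℝ, (∀ a, ∑ j, k a j * y j = 0) → y ∈ Submodule.span ℝ (ci '' S)) ∧
      ∀ Y, ci Y ∈ Submodule.span ℝ (ci '' S) → q • Y ∈ Submodule.span ℤ (S : Set (κ ⊕ ι → ℤ)) := by
  classical
  obtain ⟨r, v, hr, hv, hi, hc⟩ := mv ci S.finite_toSet
  rw [finrank_fintype_fun_eq_card, Fintype.card_sum] at hr
  obtain ⟨β, b1, b2, b3⟩ := exb v hi
  choose M hM using fun i => b3 (v i) (Submodule.subset_span ⟨i, rfl⟩)
  set V : Matrix (Fin r) (κ ⊕ ι) ℝ := (of v).map (↑)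
  set B : Matrix (Fin r) (κ ⊕ ι) ℝ := (of β).map (↑)
  set N : Matrix (Fin r) (Fin r) ℝ := (of M).map (↑)
  have e0 : V = N * B := by
    ext i j
    simp only [V, N, B, map_apply, of_apply, mul_apply]
    rw [hM i]
    simp
  have hc' : ∀ Y ∈ S, ∃ c : Fin r → ℝ, (∀ i, |c i| ≤ 1) ∧ ci Y = c ᵥ* V := fun Y hY =>
    let ⟨c, c1, c2⟩ := hc Y hY
    ⟨c, c1, c2.trans (by funext j; simp [vecMul, dotProduct, V])⟩
  have hW0 : Submodule.span ℝ (ci '' S) = Submodule.span ℝ (Set.range fun i => ci (v i)) := by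
    refine le_antisymm (Submodule.span_le.2 ?_) (Submodule.span_mono ?_)
    · rintro _ ⟨Y, hY, rfl⟩
      obtain ⟨c, -, e⟩ := hc Y hY
      rw [e]
      exact Submodule.sum_mem _ fun j _ => Submodule.smul_mem _ _ (Submodule.subset_span ⟨j, rfl⟩)
    · rintro _ ⟨i, rfl⟩
      exact ⟨_, hv i, rfl⟩
  have hB : LinearIndependent ℝ B.row := b1
  have hN : N.det ≠ 0 := ((isUnit_iff_isUnit_det _).1 (linearIndependent_rows_iff_isUnit.1
    (LinearIndependent.of_comp B.vecMulLinear (by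
      rw [show B.vecMulLinear ∘ N.row = fun i => ci (v i) from
        funext fun i => (congrFun e0 i).symm]
      exact hi)))).ne_zero
  have hD : N.det = (of M).det := (Int.cast_det _).symm
  have hcnt : (#S : ℝ) ≤ 3 ^ r * |N.det| := by
    choose! m hm using fun Y (hY : Y ∈ S) => b3 Y (hW0 ▸ Submodule.subset_span ⟨Y, hY, rfl⟩)
    have a := cnt (of M) (by rw [hD] at hN; exact_mod_cast hN) (S.image m) fun z hz => by
      obtain ⟨Y, hY, rfl⟩ := mem_image.1 hz
      obtain ⟨c, c1, c2⟩ := hc' Y hY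
      refine ⟨c, c1, vecMul_injective_iff.2 hB ?_⟩
      change ci (m Y) ᵥ* B = (c ᵥ* N) ᵥ* B
      rw [vecMul_vecMul, ← e0, ← c2]
      funext j
      conv_rhs => rw [hm Y hY]
      simp [vecMul, dotProduct, B]
    rw [card_image_of_injOn fun Y hY Y' hY' e => by rw [hm Y hY, hm Y' hY', e]] at a
    rw [hD, ← Int.cast_abs, ← Int.natCast_natAbs, Int.cast_natCast]
    exact_mod_cast a
  obtain ⟨σ, s1, s2⟩ := exs B hB Sum.inl (Fintype.linearIndependent_iff.2 fun a ha =>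
    congrFun (h3 a fun Y hY => by
      obtain ⟨c, -, e⟩ := hc' Y hY
      have e1 : ∀ l, (Y (.inl l) : ℝ) = ((c ᵥ* N) ᵥ* B) (.inl l) := fun l => by
        rw [vecMul_vecMul, ← e0, ← e]; rfl
      have e2 : ∀ i, ∑ l, a l * B i (.inl l) = 0 := fun i => by simpa using congrFun ha i
      simp only [e1]
      generalize c ᵥ* N = d
      simp only [vecMul, dotProduct, mul_sum]
      rw [sum_comm]
      exact sum_eq_zero fun i _ => by simp only [mul_left_comm _ (d i), ← mul_sum, e2, mul_zero]))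
  obtain ⟨q, q1, q2, q3⟩ := idx g W hW S hS h (of v) hv
  have hP : 1 ≤ ∏ l, W l := one_le_prod fun l _ => hW l
  have hrn : (r : ℝ) ≤ n := by exact_mod_cast hr.trans hn
  have hk : ∀ a j, ((cf (of β) (Fin.cons (.inr a) σ) j : ℤ) : ℝ) = cf B (Fin.cons (.inr a) σ) j :=
    fun a j => cf_cast _ _ _
  refine ⟨q, fun a => cf (of β) (Fin.cons (.inr a) σ), q1, q2.trans ?_, fun a Y hY => ?_,
    fun a y hy => ?_, fun y hy => ?_, fun Y hY => ?_⟩
  · rw [Fintype.card_sum]
    have : (0 : ℝ) ≤ r := r.cast_nonneg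
    exact mul_le_mul_of_nonneg_right ((pow_le_pow_left₀ (by positivity) (by linarith) _).trans
      (pow_le_pow_right₀ (by linarith) hn)) (by positivity)
  · obtain ⟨c, -, e⟩ := hc' Y hY
    have := cf_row B (Fin.cons (.inr a) σ) (c ᵥ* N)
    rw [vecMul_vecMul, ← e0, ← e] at this
    simp only [← hk, ci_apply] at this
    exact_mod_cast this
  · simp only [hk]
    set τ : Fin (r + 1) → κ ⊕ ι := Fin.cons (.inr a) σ
    by_cases hτ : Function.Injective τ
    · have a1 : N.det * ∑ j, cf B τ j * y j = ∑ j, cf V τ j * y j := by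
        simp only [e0, cf_mul, mul_sum, mul_assoc]
      rw [cf_dot V, det_bx g _ τ fun l => (s2 l).elim fun j e => ⟨j.succ, e⟩] at a1
      have a2 := det_bd (of fun i j => bx g ((Fin.cons y V : Fin (r + 1) → _) i) (τ j))
        (fun j => Sum.elim W (fun _ => 1) (τ j)) fun i j => by
          refine Fin.cases ?_ (fun i => ?_) i
          · exact hy.le _
          · exact (h _ (hv i)).le _
      have a3 : ∏ j, Sum.elim W (fun _ => (1 : ℝ)) (τ j) ≤ ∏ l, W l := by
        have b : ∀ j, 1 ≤ Sum.elim W (fun _ : ι => (1 : ℝ)) j := by rintro (l | i) <;> simp [hW]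
        rw [← prod_image (s := univ) (g := τ) (f := Sum.elim W fun _ => (1 : ℝ)) hτ.injOn]
        refine (prod_le_prod_of_subset_of_one_le (subset_univ _)
          (fun j _ => zero_le_one.trans (b j)) fun j _ _ => b j).trans ?_
        simp [Fintype.prod_sum_type]
      have a4 : r + 1 ≤ n := by
        have := Fintype.card_le_of_injective τ hτ
        rw [Fintype.card_fin, Fintype.card_sum] at this
        exact this.trans hn
      rw [← a1, abs_mul] at a2
      calc _ ≤ |∑ j, cf B τ j * y j| * (3 ^ r * |N.det|) := by gcongr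
        _ = 3 ^ r * (|N.det| * |∑ j, cf B τ j * y j|) := by ring
        _ ≤ 3 ^ n * (n.factorial * ∏ l, W l) := by
          refine mul_le_mul (by gcongr; norm_num; omega) (a2.trans ?_) (by positivity)
            (by positivity)
          have : 0 ≤ ∏ j, Sum.elim W (fun _ : ι => (1 : ℝ)) (τ j) :=
            prod_nonneg fun j _ => (abs_nonneg _).trans (hy.le _)
          gcongr
        _ = _ := by ring
    · simp only [Function.Injective, not_forall] at hτ
      obtain ⟨j, j', e, hj⟩ := hτ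
      rw [cf_dot, det_zero_of_column_eq hj fun i => by simp only [of_apply, e], abs_zero, zero_mul]
      positivity
  · obtain ⟨c, rfl⟩ := cf_span B σ s1 y fun a ha => by
      rcases a with l | a
      · exact (s2 l).elim fun j e => (ha j e).elim
      · simpa only [hk] using hy a
    rw [hW0, vecMul_eq_sum]
    exact Submodule.sum_mem _ fun i _ => Submodule.smul_mem _ _ (b2 i)
  · rw [hW0] at hY
    obtain ⟨c, e⟩ := (Submodule.mem_span_range_iff_exists_fun ℝ).1 hY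
    exact q3 Y c (e.symm.trans (by funext j; simp [vecMul, dotProduct]))

/-- functionals that are integral on `S` -/
theorem gn_fun {J : Type*} [Fintype J] {S : Set (J → ℤ)} {q : ℕ} {k : ι → J → ℤ}
    (h1 : ∀ y : J → ℝ, (∀ a, ∑ j, k a j * y j = 0) → y ∈ Submodule.span ℝ (ci '' S))
    (h2 : ∀ Y, ci Y ∈ Submodule.span ℝ (ci '' S) → q • Y ∈ Submodule.span ℤ S)
    (ξ : J → ℝ) (hξ : ∀ Y ∈ S, ∃ z : ℤ, ∑ j, ξ j * Y j = z) :
    ∃ (m : J → ℤ) (c : ι → ℝ), ∀ j, q * ξ j = m j + ∑ a, c a * k a j := by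
  classical
  let f : (J → ℝ) → (J → ℝ) →ₗ[ℝ] ℝ := fun x => Fintype.linearCombination ℝ x
  have hf : ∀ x y, f x y = ∑ j, x j * y j := fun x y => by
    simp [f, Fintype.linearCombination_apply, mul_comm]
  have h3 : ∀ Y ∈ Submodule.span ℤ S, ∃ z : ℤ, f ξ (ci Y) = z := fun Y hY => by
    induction hY using Submodule.span_induction with
    | mem Y hY => simpa only [hf, ci_apply] using hξ Y hY
    | zero => exact ⟨0, by simp⟩
    | add x y _ _ hx hy =>
      obtain ⟨a, ha⟩ := hx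
      obtain ⟨b, hb⟩ := hy
      exact ⟨a + b, by rw [map_add, map_add, ha, hb, Int.cast_add]⟩
    | smul n x _ hx =>
      obtain ⟨a, ha⟩ := hx
      exact ⟨n * a, by rw [ci_zsmul, map_smul, ha, Int.cast_mul, smul_eq_mul]⟩
  obtain ⟨π, hπ⟩ := retr_sat (Submodule.span ℝ (ci '' S))
  choose m hm using fun j => h3 _ (h2 _ (π (Pi.single j 1)).2)
  have h4 : Submodule.span ℝ (ci '' S) ≤ LinearMap.ker (f fun j => q * ξ j - m j) := by
    refine Submodule.span_le.2 ?_
    rintro _ ⟨Y, hY, rfl⟩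
    have e : Y = ∑ j, Y j • (π (Pi.single j 1)).1 := by
      have : (π Y).1 = Y := congrArg Subtype.val (hπ ⟨Y, Submodule.subset_span ⟨Y, hY, rfl⟩⟩)
      refine this.symm.trans ?_
      conv_lhs => rw [pi_eq_sum_univ' Y]
      simp only [map_sum, map_smul, Submodule.coe_sum, Submodule.coe_smul]
    have e2 : f ξ (ci (q • Y)) = ∑ j, (m j : ℝ) * Y j := by
      conv_lhs => rw [e]
      simp only [smul_sum, smul_comm q, map_sum, ci_zsmul, map_smul, hm, smul_eq_mul, mul_comm]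
    rw [SetLike.mem_coe, LinearMap.mem_ker, hf]
    rw [hf] at e2
    simp only [sub_mul, sum_sub_distrib, ci_apply, ← e2, sub_eq_zero]
    exact sum_congr rfl fun j _ => by simp; ring
  obtain ⟨c, hc⟩ := (Submodule.mem_span_range_iff_exists_fun ℝ).1
    (mem_span_of_iInf_ker_le_ker (L := fun a => f fun j => k a j) (le_trans (fun y hy =>
      h1 y fun a => (hf _ _).symm.trans ((Submodule.mem_iInf _).1 hy a)) h4))
  refine ⟨m, c, fun j => ?_⟩
  have := LinearMap.congr_fun hc (Pi.single j 1)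
  simp only [LinearMap.sum_apply, LinearMap.smul_apply, hf, smul_eq_mul, Pi.single_apply, mul_ite,
    mul_one, mul_zero, sum_ite_eq', mem_univ, if_true] at this
  linarith

/-- **GN, one variable** -/
theorem gn1 (g : ι → ℝ) {W : ℝ} (Ω : Finset ℤ) (u : ℤ → ι → ℤ) (h0 : ∃ w ∈ Ω, w ≠ 0)
    (h1 : ∀ w ∈ Ω, |(w : ℝ)| ≤ W) (h2 : ∀ w ∈ Ω, ∀ i, |u w i - g i * w| ≤ 1) {n : ℕ}
    (hn : Fintype.card ι + 1 ≤ n) :
    ∃ (q : ℕ) (k0 : ι → ℤ) (k : ι → ι → ℤ), 0 < q ∧ (q * #Ω : ℝ) ≤ (2 * n + 3) ^ n * W ∧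
      (∀ a, ∀ w ∈ Ω, k0 a * w + ∑ i, k a i * u w i = 0) ∧
      (∀ a i, |(k a i : ℝ)| * #Ω ≤ n.factorial * 3 ^ n * W) ∧
      (∀ a, |k0 a + ∑ i, k a i * g i| * #Ω ≤ n.factorial * 3 ^ n) ∧
      ∀ (ξ0 : ℝ) (ξ : ι → ℝ), (∀ w ∈ Ω, ∃ z : ℤ, ξ0 * w + ∑ i, ξ i * u w i = z) →
        ∃ (m0 : ℤ) (m : ι → ℤ) (c : ι → ℝ), q * ξ0 = m0 + ∑ a, c a * k0 a ∧
          ∀ i, q * ξ i = m i + ∑ a, c a * k a i := by
  classical
  obtain ⟨w0, hw0, hw⟩ := h0
  have hW : 1 ≤ W := le_trans (by exact_mod_cast Int.one_le_abs hw) (h1 w0 hw0)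
  let Y : ℤ → Unit ⊕ ι → ℤ := fun w => Sum.elim (fun _ => w) (u w)
  have hc : #(Ω.image Y) = #Ω := card_image_of_injective _ fun w w' e => congrFun e (.inl ())
  obtain ⟨q, k, q1, q2, k1, k2, k3, k4⟩ := gn (fun i _ => g i) (fun _ : Unit => W) (fun _ => hW)
    (Ω.image Y) ⟨_, mem_image_of_mem _ hw0⟩ (n := n) (by
      simp only [forall_mem_image]
      exact fun w hw => ⟨fun _ => h1 w hw, fun i => by simpa [Y] using h2 w hw i⟩)
    (fun a ha => funext fun _ => by simpa [Y, hw] using ha _ (mem_image_of_mem _ hw0))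
    (by simpa [add_comm] using hn)
  simp only [hc, prod_const, card_univ, Fintype.card_unit, pow_one] at q2 k2
  refine ⟨q, fun a => k a (.inl ()), fun a i => k a (.inr i), q1, q2, fun a w hw => ?_,
    fun a i => ?_, fun a => ?_, fun ξ0 ξ hξ => ?_⟩
  · simpa [Y, Fintype.sum_sum_type] using k1 a _ (mem_image_of_mem _ hw)
  · simpa [Pi.single_apply] using k2 a (Pi.single (.inr i) 1) ⟨fun _ => by simp; linarith,
      fun j => by by_cases e : j = i <;> simp [e]⟩
  · have := k2 a (Sum.elim (fun _ => W) fun i => g i * W) 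
      ⟨fun _ => (abs_of_pos (one_pos.trans_le hW)).le, fun j => by simp⟩
    simp only [Fintype.sum_sum_type, Fintype.sum_unique, Sum.elim_inl, Sum.elim_inr, ← mul_assoc,
      ← sum_mul, ← add_mul, abs_mul, abs_of_pos (one_pos.trans_le hW)] at this
    exact le_of_mul_le_mul_right ((mul_right_comm _ _ _).trans_le this) (one_pos.trans_le hW)
  · obtain ⟨m, c, e⟩ := gn_fun k3 k4 (Sum.elim (fun _ => ξ0) ξ) (by
      simp only [coe_image, Set.forall_mem_image]
      exact fun w hw => by simpa [Y, Fintype.sum_sum_type] using hξ w hw)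
    exact ⟨m (.inl ()), fun i => m (.inr i), c, e (.inl ()), fun i => e (.inr i)⟩

end Crest.Agent.N49.La

end
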