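import Mathlib

/-!
# Row 49, lattice layer (helper67): maximal volume simplices, saturated sublattices, local homs
-/

set_option autoImplicit false

open Finset Module

noncomputable section

namespace Crest.Agent.N49.La

/-- **maximal volume simplex** (barycentric spanner) -/
theorem mv {V : Type*} [AddCommGroup V] [Module ℝ V] [FiniteDimensional ℝ V] {X : Type*}
    (e : X → V) {K : Set X} (hK : K.Finite) : ∃ (r : ℕ) (v : Fin r → X), r ≤ finrank ℝ V ∧
      (∀ i, v i ∈ K) ∧ LinearIndependent ℝ (fun i => e (v i)) ∧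
      ∀ w ∈ K, ∃ c : Fin r → ℝ, (∀ i, |c i| ≤ 1) ∧ e w = ∑ i, c i • e (v i) := by
  classical
  set W := Submodule.span ℝ (e '' K)
  have := hK.to_subtype
  let p : K → W := fun x => ⟨e x, Submodule.subset_span ⟨x, x.2, rfl⟩⟩
  let b := finBasis ℝ W
  obtain ⟨f, h1, h2, h3⟩ := Submodule.exists_fun_fin_finrank_span_eq ℝ (e '' K)
  choose f' hf e' using h1
  have h4 : IsUnit (b.det fun i => p ⟨f' i, hf i⟩) := by
    have h5 : LinearIndependent ℝ fun i => p ⟨f' i, hf i⟩ :=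
      LinearIndependent.of_comp W.subtype ((funext e' : (fun i => e (f' i)) = f) ▸ h3 :
        LinearIndependent ℝ fun i => e (f' i))
    exact b.is_basis_iff_det.1 ⟨h5, h5.span_eq_top_of_card_eq_finrank' (by simp [W])⟩
  have : Nonempty (Fin (finrank ℝ W) → K) := ⟨fun i => ⟨f' i, hf i⟩⟩
  obtain ⟨v, hv⟩ := Finite.exists_max fun v : Fin (finrank ℝ W) → K => |b.det fun i => p (v i)|
  have h6 : 0 < |b.det fun i => p (v i)| := (abs_pos.2 h4.ne_zero).trans_le (hv _)
  obtain ⟨h7, h8⟩ := b.is_basis_iff_det.2 (abs_pos.1 h6).isUnit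
  refine ⟨_, fun i => v i, Submodule.finrank_le W, fun i => (v i).2,
    h7.map' W.subtype W.ker_subtype, fun w hw => ⟨fun i => (Basis.mk h7 h8.ge).repr (p ⟨w, hw⟩) i,
      fun i => ?_, ?_⟩⟩
  · have h9 := LinearMap.congr_fun (b.det_smul_mk_coord_eq_det_update h7 h8.ge i) (p ⟨w, hw⟩)
    have h10 := hv (Function.update v i ⟨w, hw⟩)
    rw [show (fun j => p (Function.update v i ⟨w, hw⟩ j)) =
      Function.update (fun j => p (v j)) i (p ⟨w, hw⟩) from Function.comp_update p v i _] at h10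
    simp only [LinearMap.smul_apply, smul_eq_mul, MultilinearMap.toLinearMap_apply,
      AlternatingMap.coe_multilinearMap, Basis.coord_apply] at h9
    rw [← h9, abs_mul] at h10
    exact le_of_mul_le_mul_left (h10.trans_eq (mul_one _).symm) h6
  · have := congrArg W.subtype ((Basis.mk h7 h8.ge).sum_repr (p ⟨w, hw⟩)).symm
    simpa [p] using this

variable {ι : Type*}

/-- integer vectors as real vectors -/
def ci : (ι → ℤ) →+ (ι → ℝ) := (Int.castAddHom ℝ).compLeft ι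

@[simp] theorem ci_apply (u : ι → ℤ) (i : ι) : ci u i = u i := rfl

theorem ci_inj : Function.Injective (ci : (ι → ℤ) → ι → ℝ) := fun _ _ h =>
  funext fun i => Int.cast_injective (congrFun h i)

theorem ci_zsmul (k : ℤ) (u : ι → ℤ) : ci (k • u) = (k : ℝ) • ci u := by
  rw [map_zsmul, Int.cast_smul_eq_zsmul]

theorem ci_sum {κ : Type*} (s : Finset κ) (k : κ → ℤ) (v : κ → ι → ℤ) :
    ci (∑ j ∈ s, k j • v j) = ∑ j ∈ s, (k j : ℝ) • ci (v j) := by
  simp only [map_sum, ci_zsmul]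

/-- the lattice points of a real subspace -/
def sat (W : Submodule ℝ (ι → ℝ)) : Submodule ℤ (ι → ℤ) :=
  (W.toAddSubgroup.comap ci).toIntSubmodule

theorem mem_sat {W : Submodule ℝ (ι → ℝ)} {u : ι → ℤ} : u ∈ sat W ↔ ci u ∈ W := Iff.rfl

/-- a saturated sublattice is a retract -/
theorem exists_retr [Finite ι] (Λ : Submodule ℤ (ι → ℤ))
    (h : ∀ (k : ℤ) u, k ≠ 0 → k • u ∈ Λ → u ∈ Λ) :
    ∃ π : (ι → ℤ) →ₗ[ℤ] Λ, ∀ u : Λ, π u = u := by
  have : IsTorsionFree ℤ ((ι → ℤ) ⧸ Λ) := IsTorsionFree.of_smul_eq_zero fun k x hx => by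
    obtain ⟨u, rfl⟩ := Λ.mkQ_surjective x
    rw [← map_smul, Submodule.mkQ_apply, Submodule.Quotient.mk_eq_zero] at hx
    by_cases hk : k = 0
    · exact Or.inl hk
    · exact Or.inr ((Submodule.Quotient.mk_eq_zero Λ).2 (h k u hk hx))
  obtain ⟨s, hs⟩ := projective_lifting_property Λ.mkQ LinearMap.id Λ.mkQ_surjective
  have h1 : ∀ u, (LinearMap.id - s ∘ₗ Λ.mkQ : (ι → ℤ) →ₗ[ℤ] ι → ℤ) u ∈ Λ := fun u => by
    have := LinearMap.congr_fun hs (Λ.mkQ u)
    rw [← Submodule.Quotient.mk_eq_zero, ← Submodule.mkQ_apply]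
    simpa [sub_eq_zero] using this.symm
  exact ⟨LinearMap.codRestrict Λ _ h1, fun u => Subtype.ext (by
    simp [(Submodule.Quotient.mk_eq_zero Λ).2 u.2])⟩

theorem retr_sat [Finite ι] (W : Submodule ℝ (ι → ℝ)) :
    ∃ π : (ι → ℤ) →ₗ[ℤ] sat W, ∀ u : sat W, π u = u :=
  exists_retr _ fun k u hk hu => by
    rw [mem_sat, ci_zsmul] at hu
    exact (W.smul_mem_iff (Int.cast_ne_zero.2 hk)).1 hu

/-- homomorphisms extend from the lattice points of a subspace -/
theorem extend_sat [Finite ι] (W : Submodule ℝ (ι → ℝ)) {H : Type*} [AddCommGroup H]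
    (g : sat W →+ H) : ∃ g' : (ι → ℤ) →+ H, ∀ u : sat W, g' u = g u :=
  let ⟨π, hπ⟩ := retr_sat W
  ⟨g.comp π.toAddMonoidHom, fun u => congrArg g (hπ u)⟩

/-- injective linear maps have finitely many lattice points in a ball -/
theorem finite_ball [Fintype ι] {E : Type*} [NormedAddCommGroup E] [NormedSpace ℝ E]
    (T : (ι → ℝ) →L[ℝ] E) (hT : Function.Injective T) (R : ℝ) :
    {u : ι → ℤ | ‖T (ci u)‖ ≤ R}.Finite := by
  obtain ⟨K, -, hK⟩ := T.toLinearMap.exists_antilipschitzWith (LinearMap.ker_eq_bot.2 hT)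
  refine (Set.Finite.pi' fun _ : ι => Set.finite_Icc (-⌈K * R⌉) ⌈K * R⌉).subset fun u hu i => ?_
  have h1 : ‖ci u‖ ≤ K * R := (ZeroHomClass.bound_of_antilipschitz T hK _).trans
    (mul_le_mul_of_nonneg_left hu K.2)
  have h2 : |(u i : ℝ)| ≤ ⌈K * R⌉ := ((norm_le_pi_norm (ci u) i).trans h1).trans (Int.le_ceil _)
  exact abs_le.1 (by exact_mod_cast h2)

section loc

variable {G H : Type*} [AddCommGroup G] [AddCommGroup H] {N : G → ℝ} {ψ : G → H}

/-- small sign sums are respected -/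
theorem loc_sum (h0 : N 0 = 0) (hn : ∀ u, N (-u) = N u) (ha : ∀ u v, N (u + v) ≤ N u + N v)
    (h : ∀ u v, N u ≤ 1 → N v ≤ 1 → ψ (u + v) = ψ u + ψ v) {κ : Type*} {δ : ℝ} (hδ : 0 ≤ δ)
    (v : κ → G) (hv : ∀ j, N (v j) ≤ δ) (k : κ → ℤ) (hk : ∀ j, |k j| ≤ 1) (s : Finset κ)
    (hs : s.card * δ ≤ 1) :
    ψ (∑ j ∈ s, k j • v j) = ∑ j ∈ s, k j • ψ (v j) ∧ N (∑ j ∈ s, k j • v j) ≤ s.card * δ := by
  classical
  have z : ψ 0 = 0 := by simpa using h 0 0 (by simp [h0]) (by simp [h0])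
  induction s using Finset.induction_on with
  | empty => simp [z, h0]
  | insert j s hj ih =>
    rw [card_insert_of_notMem hj, Nat.cast_succ, add_mul, one_mul] at hs
    have h1 : 0 ≤ (s.card : ℝ) * δ := by positivity
    obtain ⟨h2, h3⟩ := ih (by linarith)
    have h4 : ψ (k j • v j) = k j • ψ (v j) ∧ N (k j • v j) ≤ δ := by
      have h5 : ψ (-v j) = -ψ (v j) := by
        have := h (v j) (-v j) (by linarith [hv j]) (by linarith [hv j, hn (v j)])
        rw [add_neg_cancel, z] at this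
        exact (neg_eq_of_add_eq_zero_right this.symm).symm
      obtain e | e | e : k j = -1 ∨ k j = 0 ∨ k j = 1 := by have := abs_le.1 (hk j); omega
      · simp [e, h5, hn, hv]
      · simp [e, z, h0, hδ]
      · simp [e, hv]
    rw [sum_insert hj, sum_insert hj, h _ _ (by linarith [h4.2]) (by linarith), h2, h4.1,
      card_insert_of_notMem hj, Nat.cast_succ]
    exact ⟨rfl, (ha _ _).trans (by linarith [h4.2])⟩

end loc

/-- **local homomorphisms on a lattice ball are global** -/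
theorem loc [Fintype ι] {E : Type*} [NormedAddCommGroup E] [NormedSpace ℝ E]
    (T : (ι → ℝ) →L[ℝ] E) (hT : Function.Injective T) {H : Type*} [AddCommGroup H]
    (ψ : (ι → ℤ) → H)
    (h : ∀ u v, ‖T (ci u)‖ ≤ 1 → ‖T (ci v)‖ ≤ 1 → ψ (u + v) = ψ u + ψ v) :
    ∃ g : (ι → ℤ) →+ H, ∀ u, ‖T (ci u)‖ ≤ 1 / (Fintype.card ι + 1) → g u = ψ u := by
  set δ : ℝ := 1 / (Fintype.card ι + 1)
  have hδ : 0 ≤ δ := by positivity
  obtain ⟨r, v, hr, hv, hi, hc⟩ := mv ci (finite_ball T hT δ)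
  rw [finrank_fintype_fun_eq_card] at hr
  have hr' : (r : ℝ) * δ ≤ 1 := by
    rw [mul_one_div, div_le_one (by positivity)]; exact_mod_cast hr.trans (Nat.le_succ _)
  have hs := fun k hk => loc_sum (N := fun u => ‖T (ci u)‖) (by simp) (by simp)
    (fun u v => by rw [map_add, map_add]; exact norm_add_le _ _) h hδ v hv k hk univ
    (by simpa using hr')
  simp only [card_univ, Fintype.card_fin] at hs
  set W := Submodule.span ℝ (Set.range fun i => ci (v i))
  let c : sat W → Fin r → ℝ := fun w i => hi.repr ⟨ci w, w.2⟩ i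
  have c1 : ∀ w, ci w.1 = ∑ i, c w i • ci (v i) := fun w => by
    have := hi.linearCombination_repr ⟨ci w, w.2⟩
    rw [Finsupp.linearCombination_apply, Finsupp.sum_fintype _ _ (by simp)] at this
    exact this.symm
  have c2 : ∀ w w' i, c (w + w') i = c w i + c w' i := fun w w' i => by
    have : (⟨ci (w + w' : sat W), (w + w').2⟩ : W) = ⟨ci w, w.2⟩ + ⟨ci w', w'.2⟩ :=
      Subtype.ext (map_add ci w.1 w'.1)
    simp only [c, this, map_add, Finsupp.add_apply]
  let u : sat W → ι → ℤ := fun w => w.1 - ∑ i, ⌊c w i⌋ • v i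
  have u1 : ∀ w, ‖T (ci (u w))‖ ≤ 1 := fun w => by
    rw [map_sub, ci_sum, c1, ← sum_sub_distrib, map_sum]
    refine (norm_sum_le_of_le _ (n := fun _ => δ) fun i _ => ?_).trans (by simpa using hr')
    rw [← sub_smul, map_smul, norm_smul, Int.self_sub_floor, Real.norm_of_nonneg (Int.fract_nonneg _)]
    exact (mul_le_of_le_one_left (norm_nonneg _) (Int.fract_lt_one _).le).trans (hv i)
  obtain ⟨g, hg⟩ := extend_sat W (AddMonoidHom.mk' (fun w => ∑ i, ⌊c w i⌋ • ψ (v i) + ψ (u w))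
    fun w w' => by
      have e := hs (fun i => ⌊c (w + w') i⌋ - ⌊c w i⌋ - ⌊c w' i⌋) fun i => by
        have := Int.le_floor_add (c w i) (c w' i)
        have := Int.le_floor_add_floor (c w i) (c w' i)
        rw [c2, abs_le]; omega
      have e1 : u w + u w' = u (w + w') + ∑ i, (⌊c (w + w') i⌋ - ⌊c w i⌋ - ⌊c w' i⌋) • v i := by
        simp only [u, sub_smul, sum_sub_distrib, Submodule.coe_add]; abel
      have e2 := h _ _ (u1 w) (u1 w')
      rw [e1, h _ _ (u1 _) (e.2.trans hr'), e.1] at e2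
      rw [eq_sub_of_add_eq e2]
      simp only [sub_smul, sum_sub_distrib]; abel)
  refine ⟨g, fun w hw => ?_⟩
  obtain ⟨a, ha, e⟩ := hc w hw
  have hW : w ∈ sat W := by
    rw [mem_sat, e]
    exact Submodule.sum_mem _ fun i _ => W.smul_mem _ (Submodule.subset_span ⟨i, rfl⟩)
  have e1 : ∀ i, c ⟨w, hW⟩ i = a i :=
    Fintype.linearIndependent_iffₛ.1 hi _ _ ((c1 ⟨w, hW⟩).symm.trans e)
  have e2 := hs (fun i => ⌊c ⟨w, hW⟩ i⌋) fun i => by
    have := abs_le.1 (ha i)
    rw [e1, abs_le]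
    exact ⟨Int.le_floor.2 (by simpa using this.1), Int.floor_le_iff.2 (by push_cast; linarith)⟩
  rw [hg ⟨w, hW⟩, AddMonoidHom.mk'_apply, ← e2.1, ← h _ _ (e2.2.trans hr') (u1 _)]
  simp [u]

end Crest.Agent.N49.La

end
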