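import Crest.Agent.N49.Po.Mix

/-!
# Row 49, lattice layer (helper67): slicing off the short dual vectors of a Gaussian lattice
-/

set_option autoImplicit false

open Finset Matrix

noncomputable section

namespace Crest.Agent.N49.La

open Po

/-- a splitting `R^d = R^σ ⊕ R^ρ`, `y = B (P y) + C (K y)` -/
structure Spl {R d σ ρ : Type} [CommRing R] [Fintype d] [Fintype σ] [Fintype ρ] [DecidableEq d]
    [DecidableEq σ] [DecidableEq ρ] (B : Matrix d σ R) (P : Matrix σ d R) (C : Matrix d ρ R)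
    (K : Matrix ρ d R) : Prop where
  sum : B * P + C * K = 1
  pb : P * B = 1
  kb : K * B = 0
  kc : K * C = 1
  pc : P * C = 0

variable {d σ ρ : Type} [Fintype d] [Fintype σ] [Fintype ρ] [DecidableEq d] [DecidableEq σ]
  [DecidableEq ρ]

/-- real version of an integer matrix -/
abbrev rm {α β : Type} (B : Matrix α β ℤ) : Matrix α β ℝ := B.map (Int.cast : ℤ → ℝ)

theorem rm_mul {α β γ : Type} [Fintype β] (A : Matrix α β ℤ) (B : Matrix β γ ℤ) :
    rm (A * B) = rm A * rm B := Matrix.map_mul (f := Int.castRingHom ℝ)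

theorem zc_vecMul {α β : Type} [Fintype α] (u : α → ℤ) (B : Matrix α β ℤ) :
    zc (u ᵥ* B) = zc u ᵥ* rm B := by
  funext i; simp [zc, vecMul, dotProduct]

section
variable {R : Type} [CommRing R] {B : Matrix d σ R} {P : Matrix σ d R} {C : Matrix d ρ R}
  {K : Matrix ρ d R}

theorem Spl.inj (h : Spl B P C K) : Function.Injective B.mulVec := fun u v e => by
  have := congrArg P.mulVec e
  rwa [mulVec_mulVec, mulVec_mulVec, h.pb, one_mulVec, one_mulVec] at this

theorem Spl.eq (h : Spl B P C K) (y : d → R) : y = B *ᵥ (P *ᵥ y) + C *ᵥ (K *ᵥ y) := by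
  rw [mulVec_mulVec, mulVec_mulVec, ← add_mulVec, h.sum, one_mulVec]

theorem Spl.dual (h : Spl B P C K) (k : d → R) : k = (k ᵥ* B) ᵥ* P + (k ᵥ* C) ᵥ* K := by
  rw [vecMul_vecMul, vecMul_vecMul, ← vecMul_add, h.sum, vecMul_one]

/-- the splitting as an equivalence -/
def Spl.equiv (h : Spl B P C K) : (ρ → R) × (σ → R) ≃ (d → R) where
  toFun x := B *ᵥ x.2 + C *ᵥ x.1
  invFun y := (K *ᵥ y, P *ᵥ y)
  left_inv x := by simp [mulVec_add, h.pb, h.kb, h.kc, h.pc]
  right_inv y := (h.eq y).symm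

theorem Spl.card [Nontrivial R] (h : Spl B P C K) :
    Fintype.card σ + Fintype.card ρ ≤ Fintype.card d := by
  have e : fromRows P K * fromCols B C = 1 := by
    rw [fromRows_mul_fromCols, h.pb, h.kb, h.kc, h.pc, fromBlocks_one]
  rw [← Fintype.card_sum, ← rank_one (R := R), ← e]
  exact (rank_mul_le_right _ _).trans (rank_le_card_height _)

theorem Spl.reindex (h : Spl B P C K) {σ' ρ' : Type} [Fintype σ'] [Fintype ρ'] [DecidableEq σ']
    [DecidableEq ρ'] (e : σ' ≃ σ) (f : ρ' ≃ ρ) :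
    Spl (B.submatrix id e) (P.submatrix e id) (C.submatrix id f) (K.submatrix f id) where
  sum := by rw [submatrix_mul_equiv, submatrix_mul_equiv]; exact h.sum
  pb := by rw [← submatrix_mul _ _ _ _ _ Function.bijective_id, h.pb, submatrix_one_equiv]
  kb := by rw [← submatrix_mul _ _ _ _ _ Function.bijective_id, h.kb]; rfl
  kc := by rw [← submatrix_mul _ _ _ _ _ Function.bijective_id, h.kc, submatrix_one_equiv]
  pc := by rw [← submatrix_mul _ _ _ _ _ Function.bijective_id, h.pc]; rfl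

theorem Spl.comp (h : Spl B P C K) {σ' ρ' : Type} [Fintype σ'] [Fintype ρ'] [DecidableEq σ']
    [DecidableEq ρ'] {B' : Matrix σ σ' R} {P' : Matrix σ' σ R} {C' : Matrix σ ρ' R}
    {K' : Matrix ρ' σ R} (h' : Spl B' P' C' K') (n : Matrix ρ' ρ R) :
    Spl (B * B') (P' * P) (fromCols (C - B * C' * n) (B * C')) (fromRows K (K' * P + n * K)) := by
  have a : ∀ {τ : Type} (X : Matrix σ τ R), P * (B * X) = X := fun X => by
    rw [← Matrix.mul_assoc, h.pb, Matrix.one_mul]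
  have b : ∀ {τ : Type} (X : Matrix σ τ R), K * (B * X) = 0 := fun X => by
    rw [← Matrix.mul_assoc, h.kb, Matrix.zero_mul]
  have c : ∀ {τ : Type} (X : Matrix ρ' τ R), K' * (C' * X) = X := fun X => by
    rw [← Matrix.mul_assoc, h'.kc, Matrix.one_mul]
  have e : ∀ {τ : Type} (X : Matrix ρ' τ R), P' * (C' * X) = 0 := fun X => by
    rw [← Matrix.mul_assoc, h'.pc, Matrix.zero_mul]
  refine ⟨?_, ?_, ?_, ?_, ?_⟩
  · have : B * (B' * P' + C' * K') * P + C * K = 1 := by rw [h'.sum, Matrix.mul_one, h.sum]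
    rw [fromCols_mul_fromRows, ← this]
    simp only [Matrix.mul_assoc, Matrix.mul_add, Matrix.add_mul, Matrix.sub_mul]
    abel
  · simp only [Matrix.mul_assoc, a, h'.pb]
  · simp [fromRows_mul, Matrix.mul_assoc, Matrix.add_mul, a, b, h'.kb]
  · rw [fromRows_mul_fromCols]
    simp [Matrix.mul_assoc, Matrix.add_mul, Matrix.mul_sub, a, b, c, h'.kc, h.kc, h.pc]
  · simp [mul_fromCols, Matrix.mul_assoc, Matrix.mul_sub, a, e, h'.pc, h.pc]

end

theorem Spl.rm {B : Matrix d σ ℤ} {P : Matrix σ d ℤ} {C : Matrix d ρ ℤ} {K : Matrix ρ d ℤ}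
    (h : Spl B P C K) : Spl (rm B) (rm P) (rm C) (rm K) := by
  have z : ∀ {α β : Type}, La.rm (0 : Matrix α β ℤ) = 0 := Matrix.map_zero _ Int.cast_zero
  have o : ∀ {α : Type} [DecidableEq α], La.rm (1 : Matrix α α ℤ) = 1 :=
    Matrix.map_one _ Int.cast_zero Int.cast_one
  refine ⟨?_, by rw [← rm_mul, h.pb, o], by rw [← rm_mul, h.kb, z], by rw [← rm_mul, h.kc, o],
    by rw [← rm_mul, h.pc, z]⟩
  rw [← rm_mul, ← rm_mul, ← o, ← h.sum]
  exact (Matrix.map_add _ Int.cast_add _ _).symm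

/-- extensions of a functional on a slice: the dual norm splits orthogonally -/
theorem Spl.qf_ext {B : Matrix d σ ℝ} {P : Matrix σ d ℝ} {C : Matrix d ρ ℝ} {K : Matrix ρ d ℝ}
    (h : Spl B P C K) {M : Matrix d d ℝ} (hM : M.PosDef) (m : σ → ℝ) : ∃ t : ρ → ℝ, ∀ n : ρ → ℝ,
      qf M⁻¹ (m ᵥ* P + n ᵥ* K) = qf (Bᵀ * M * B)⁻¹ m + qf M⁻¹ ((n - t) ᵥ* K) := by
  have hu := (posDef_conj hM h.inj).det_pos.ne'.isUnit
  obtain ⟨w, hw⟩ : ∃ w, w = (Bᵀ * M * B)⁻¹ *ᵥ m := ⟨_, rfl⟩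
  have h1 : (M *ᵥ (B *ᵥ w)) ᵥ* B = m := by
    rw [← mulVec_transpose, mulVec_mulVec, mulVec_mulVec, hw, mulVec_mulVec, mul_nonsing_inv _ hu,
      one_mulVec]
  have h2 : M⁻¹ *ᵥ (M *ᵥ (B *ᵥ w)) = B *ᵥ w := by
    rw [mulVec_mulVec, nonsing_inv_mul _ hM.det_pos.ne'.isUnit, one_mulVec]
  refine ⟨(M *ᵥ (B *ᵥ w)) ᵥ* C, fun n => ?_⟩
  have h3 := h.dual (M *ᵥ (B *ᵥ w))
  rw [h1] at h3
  rw [show m ᵥ* P + n ᵥ* K = (n - (M *ᵥ (B *ᵥ w)) ᵥ* C) ᵥ* K + M *ᵥ (B *ᵥ w) by
    rw [sub_vecMul]; linear_combination (exp := 1) -h3, qf_add hM.inv, h2, ← dotProduct_mulVec,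
    mulVec_mulVec w K, h.kb, zero_mulVec, dotProduct_zero, mul_zero, add_zero, add_comm]
  congr 1
  rw [qf, qf, h2, ← hw, dotProduct_mulVec, h1]

/-- a primitive vector splits the lattice -/
theorem spl_one (k c : d → ℤ) (h : k ⬝ᵥ c = 1) : ∃ (s : ℕ) (B : Matrix d (Fin s) ℤ)
    (P : Matrix (Fin s) d ℤ), Spl B P (replicateCol Unit c) (replicateRow Unit k) := by
  let φ : (d → ℤ) →ₗ[ℤ] ℤ := dotProductBilin ℤ ℤ k
  have hφ : ∀ y, φ y = k ⬝ᵥ y := fun _ => rfl
  obtain ⟨s, b⟩ := (LinearMap.ker φ).basisOfPid (Pi.basisFun ℤ d)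
  let π : (d → ℤ) →ₗ[ℤ] LinearMap.ker φ := (LinearMap.id - φ.smulRight c).codRestrict _ fun y => by
    change k ⬝ᵥ (y - (k ⬝ᵥ y) • c) = 0
    rw [dotProduct_sub, dotProduct_smul, h, smul_eq_mul, mul_one, sub_self]
  have hπ : ∀ y, (π y).1 = y - (k ⬝ᵥ y) • c := fun _ => rfl
  have h0 : ∀ y : LinearMap.ker φ, k ⬝ᵥ y.1 = 0 := fun y => y.2
  have h1 : ∀ y : LinearMap.ker φ, π y = y := fun y => Subtype.ext (by simp [hπ, h0])
  have h2 : π c = 0 := Subtype.ext (by simp [hπ, h])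
  have hc : ∀ t : Unit → ℤ, replicateCol Unit c *ᵥ t = t () • c := fun t => by
    funext i; simp [mulVec, dotProduct, mul_comm]
  refine ⟨s, LinearMap.toMatrix' ((LinearMap.ker φ).subtype ∘ₗ b.equivFun.symm.toLinearMap),
    LinearMap.toMatrix' (b.equivFun.toLinearMap ∘ₗ π), ?_, ?_, ?_, ?_, ?_⟩ <;>
    refine ext_iff_mulVec.2 fun y => ?_ <;>
    simp only [add_mulVec, ← mulVec_mulVec, LinearMap.toMatrix'_mulVec, hc, one_mulVec,
      zero_mulVec, replicateRow_mulVec_eq_const, LinearMap.comp_apply, LinearEquiv.coe_coe,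
      LinearEquiv.symm_apply_apply, Submodule.subtype_apply, h1, LinearEquiv.apply_symm_apply, h0,
      map_smul, h2, map_zero, smul_zero, dotProduct_smul, h]
  · simp [hπ]
  · rfl
  · funext u; simp

omit [DecidableEq d] in
theorem exists_prim (k : d → ℤ) (hk : k ≠ 0) :
    ∃ (g : ℤ) (k' c : d → ℤ), g ≠ 0 ∧ k = g • k' ∧ k' ⬝ᵥ c = 1 := by
  obtain ⟨g, hg⟩ : ∃ g, Ideal.span (Set.range k) = Ideal.span {g} :=
    (IsPrincipalIdealRing.principal (Ideal.span (Set.range k))).principal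
  choose k' h using fun i => Ideal.mem_span_singleton'.1
    (show k i ∈ Ideal.span {g} from hg ▸ Ideal.subset_span ⟨i, rfl⟩)
  obtain ⟨c, hc⟩ := Ideal.mem_span_range_iff_exists_fun.1
    (show g ∈ Ideal.span (Set.range k) from hg ▸ Ideal.mem_span_singleton_self g)
  have h0 : g ≠ 0 := fun e => hk (funext fun i => by rw [← h i, e, mul_zero]; rfl)
  refine ⟨g, k', c, h0, funext fun i => by rw [← h i, mul_comm]; rfl, mul_right_cancel₀ h0 ?_⟩
  rw [one_mul, dotProduct, sum_mul]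
  exact (sum_congr rfl fun i _ => by rw [← h i]; ring).trans hc

theorem slice_aux (T : ℝ) (N : ℕ) : ∀ (d : Type) [Fintype d] [DecidableEq d] (M : Matrix d d ℝ),
    Fintype.card d ≤ N → M.PosDef → ∃ (σ ρ : Type) (_ : Fintype σ) (_ : Fintype ρ)
      (_ : DecidableEq σ) (_ : DecidableEq ρ) (B : Matrix d σ ℤ) (P : Matrix σ d ℤ)
      (C : Matrix d ρ ℤ) (K : Matrix ρ d ℤ), Spl B P C K ∧
      (∀ a, qf M⁻¹ (zc (K a)) ≤ (1 + Fintype.card ρ / 4) * T) ∧
      ∀ m : σ → ℤ, m ≠ 0 → T ≤ qf ((rm B)ᵀ * M * rm B)⁻¹ (zc m) := by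
  have triv : ∀ (d : Type) [Fintype d] [DecidableEq d] (M : Matrix d d ℝ),
      (∀ m : d → ℤ, m ≠ 0 → T ≤ qf M⁻¹ (zc m)) → ∃ (σ ρ : Type) (_ : Fintype σ) (_ : Fintype ρ)
      (_ : DecidableEq σ) (_ : DecidableEq ρ) (B : Matrix d σ ℤ) (P : Matrix σ d ℤ)
      (C : Matrix d ρ ℤ) (K : Matrix ρ d ℤ), Spl B P C K ∧
      (∀ a, qf M⁻¹ (zc (K a)) ≤ (1 + Fintype.card ρ / 4) * T) ∧
      ∀ m : σ → ℤ, m ≠ 0 → T ≤ qf ((rm B)ᵀ * M * rm B)⁻¹ (zc m) := fun d _ _ M h =>
    ⟨d, Empty, inferInstance, inferInstance, inferInstance, inferInstance, 1, 1, 0, 0,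
      ⟨by simp, by simp, by simp, Subsingleton.elim _ _, Subsingleton.elim _ _⟩,
      fun a => a.elim, by simpa [rm] using h⟩
  induction N with
  | zero =>
    refine fun d _ _ M hN _ => triv d M fun m hm => ?_
    have := Fintype.card_eq_zero_iff.1 (Nat.le_zero.1 hN)
    exact (hm (Subsingleton.elim _ _)).elim
  | succ N ih =>
    intro d _ _ M hN hM
    by_cases h : ∀ m : d → ℤ, m ≠ 0 → T ≤ qf M⁻¹ (zc m)
    · exact triv d M h
    push Not at h
    obtain ⟨k0, h0, h1⟩ := h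
    obtain ⟨g, k, c, g0, rfl, hc⟩ := exists_prim k0 h0
    have h2 : qf M⁻¹ (zc k) ≤ T := by
      rw [show zc (g • k) = (g : ℝ) • zc k by funext i; simp [zc], qf_smul_right] at h1
      refine (le_mul_of_one_le_left (qf_nonneg hM.inv _) ?_).trans h1.le
      exact_mod_cast (one_le_sq_iff_one_le_abs g).2 (Int.one_le_abs g0)
    have hT : 0 ≤ T := (qf_nonneg hM.inv _).trans h2
    obtain ⟨s, B, P, h⟩ := spl_one k c hc
    obtain ⟨σ, ρ, _, _, _, _, B', P', C', K', h', k1, k2⟩ := ih (Fin s) ((rm B)ᵀ * M * rm B)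
      (by have := h.card; simp only [Fintype.card_unit] at this; omega) (posDef_conj hM h.rm.inj)
    choose t ht using fun a => h.rm.qf_ext hM (zc (K' a))
    refine ⟨σ, Unit ⊕ ρ, inferInstance, inferInstance, inferInstance, inferInstance, _, _, _, _,
      h.comp h' (of fun a _ => round (t a ())), ?_, fun m hm => ?_⟩
    · have h4 : (0 : ℝ) ≤ Fintype.card ρ := Nat.cast_nonneg _
      rw [Fintype.card_sum, Fintype.card_unit]
      push_cast
      rintro (a | a)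
      · exact h2.trans (by nlinarith)
      · have e := ht a fun _ => round (t a ())
        have e1 : ((fun _ => (round (t a ()) : ℝ)) - t a) ᵥ* rm (replicateRow Unit k) =
            (round (t a ()) - t a ()) • zc k := by
          funext i; simp [vecMul, dotProduct, zc]
        have e2 : (round (t a ()) - t a ()) ^ 2 ≤ 1 / 4 := by
          have := abs_sub_round (t a ())
          rw [← sq_abs, abs_sub_comm]
          nlinarith [abs_nonneg (t a () - round (t a ()))]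
        rw [e1, qf_smul_right] at e
        refine le_trans (le_of_eq (Eq.trans (congrArg _ ?_) e)) ?_
        · funext i; simp [zc, vecMul, dotProduct, mul_apply]
        · nlinarith [k1 a, mul_le_mul e2 h2 (qf_nonneg hM.inv _) (by norm_num)]
    · simpa only [rm_mul, transpose_mul, Matrix.mul_assoc] using k2 m hm

/-- **slicing**: short size-reduced relations `K` whose common kernel `B ℤ^s` is smooth -/
theorem slice {M : Matrix d d ℝ} (hM : M.PosDef) (T : ℝ) : ∃ (r s : ℕ) (B : Matrix d (Fin s) ℤ)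
    (P : Matrix (Fin s) d ℤ) (C : Matrix d (Fin r) ℤ) (K : Matrix (Fin r) d ℤ), Spl B P C K ∧
      (∀ a, qf M⁻¹ (zc (K a)) ≤ (1 + r / 4) * T) ∧
      ∀ m : Fin s → ℤ, m ≠ 0 → T ≤ qf ((rm B)ᵀ * M * rm B)⁻¹ (zc m) := by
  obtain ⟨σ, ρ, _, _, _, _, B, P, C, K, h, k1, k2⟩ := slice_aux T _ d M le_rfl hM
  let e := (Fintype.equivFin σ).symm
  refine ⟨_, _, _, _, _, _, h.reindex e (Fintype.equivFin ρ).symm, fun a => k1 _, fun m hm => ?_⟩
  refine (k2 (m ∘ e.symm) fun z => hm (funext fun i => by simpa using congrFun z (e i))).trans_eq ?_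
  rw [show (rm (B.submatrix id e))ᵀ * M * rm (B.submatrix id e) =
    ((rm B)ᵀ * M * rm B).submatrix e e from rfl, inv_submatrix_equiv, qf, qf,
    submatrix_mulVec_equiv, ← comp_equiv_symm_dotProduct]
  rfl

end Crest.Agent.N49.La

end
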